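import Mathlib

/-! # Row 337, S0528 (helper9): the Peierls-Bogoliubov inequality. -/

set_option autoImplicit false

open Matrix NormedSpace

namespace Crest.Agent.N337.KMS

variable {m : Type*} [Fintype m] [DecidableEq m]

theorem herm_diag {H : Matrix m m ℂ} (hH : H.IsHermitian) :
    ∃ (U : Matrix m m ℂ) (a : m → ℝ), Uᴴ * U = 1 ∧ U * Uᴴ = 1 ∧
      H = U * diagonal (fun i => (a i : ℂ)) * Uᴴ ∧
      exp H = U * diagonal (fun i => (Real.exp (a i) : ℂ)) * Uᴴ := by
  have h1 : (hH.eigenvectorUnitary : Matrix m m ℂ)ᴴ * (hH.eigenvectorUnitary : Matrix m m ℂ) = 1 :=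
    Unitary.coe_star_mul_self hH.eigenvectorUnitary
  have h2 : (hH.eigenvectorUnitary : Matrix m m ℂ) * (hH.eigenvectorUnitary : Matrix m m ℂ)ᴴ = 1 :=
    Unitary.coe_mul_star_self hH.eigenvectorUnitary
  have h3 : H = (hH.eigenvectorUnitary : Matrix m m ℂ) *
      diagonal (fun i => ((hH.eigenvalues i : ℝ) : ℂ)) * (hH.eigenvectorUnitary : Matrix m m ℂ)ᴴ := by
    have h := hH.spectral_theorem
    rw [Unitary.conjStarAlgAut_apply] at h
    exact h
  refine ⟨_, hH.eigenvalues, h1, h2, h3, ?_⟩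
  have hU : IsUnit (hH.eigenvectorUnitary : Matrix m m ℂ) := ⟨⟨_, _, h2, h1⟩, rfl⟩
  conv_lhs => rw [h3, ← Matrix.inv_eq_right_inv h2, Matrix.exp_conj _ _ hU, Matrix.exp_diagonal,
    Matrix.inv_eq_right_inv h2]
  congr 3
  funext i
  rw [Pi.coe_exp, ← Complex.exp_eq_exp_ℂ, Complex.ofReal_exp]

theorem trace_two (U V : Matrix m m ℂ) (a c : m → ℝ) :
    (V * diagonal (fun j => (c j : ℂ)) * Vᴴ * (U * diagonal (fun i => (a i : ℂ)) * Uᴴ)).trace.re =
      ∑ i, ∑ j, Complex.normSq ((Uᴴ * V) i j) * (c j * a i) := by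
  have e : (V * diagonal (fun j => (c j : ℂ)) * Vᴴ * (U * diagonal (fun i => (a i : ℂ)) * Uᴴ)).trace
      = (diagonal (fun i => (a i : ℂ)) * ((Uᴴ * V) * diagonal (fun j => (c j : ℂ))) *
        (Uᴴ * V)ᴴ).trace := by
    rw [← Matrix.mul_assoc, Matrix.trace_mul_comm, ← Matrix.mul_assoc, ← Matrix.mul_assoc,
      Matrix.trace_mul_comm, conjTranspose_mul, conjTranspose_conjTranspose]
    simp only [Matrix.mul_assoc]
  rw [e]
  generalize Uᴴ * V = W
  simp only [Matrix.trace, diag_apply, Matrix.mul_apply (M := diagonal _ * _), diagonal_mul,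
    mul_diagonal, conjTranspose_apply, Complex.re_sum]
  refine Finset.sum_congr rfl fun i _ => Finset.sum_congr rfl fun j _ => ?_
  have : (a i : ℂ) * (W i j * c j) * star (W i j) =
      ((Complex.normSq (W i j) * (c j * a i) : ℝ) : ℂ) := by
    rw [Complex.ofReal_mul, ← Complex.mul_conj]
    push_cast
    simp only [RCLike.star_def]
    ring
  rw [this, Complex.ofReal_re]

theorem trace_exp_pos [Nonempty m] {A : Matrix m m ℂ} (hA : A.IsHermitian) :
    0 < (exp A).trace.re ∧ (exp A).trace.im = 0 := by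
  obtain ⟨U, a, h1, -, -, h4⟩ := herm_diag hA
  rw [h4, Matrix.trace_mul_comm, ← Matrix.mul_assoc, h1, Matrix.one_mul, trace_diagonal,
    ← Complex.ofReal_sum, Complex.ofReal_re, Complex.ofReal_im]
  exact ⟨Finset.sum_pos (fun i _ => Real.exp_pos _) Finset.univ_nonempty, rfl⟩

/-- **Peierls-Bogoliubov** -/
theorem peierls [Nonempty m] {A C : Matrix m m ℂ} (hA : A.IsHermitian) (hC : C.IsHermitian) :
    Real.log (exp A).trace.re + ((C - A) * exp A).trace.re / (exp A).trace.re ≤
      Real.log (exp C).trace.re := by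
  have hZ := (trace_exp_pos hA).1
  obtain ⟨U, a, h1, h2, h3, h4⟩ := herm_diag hA
  obtain ⟨V, c, k1, k2, k3, k4⟩ := herm_diag hC
  have u1 : U * diagonal (fun _ => ((1 : ℝ) : ℂ)) * Uᴴ = 1 := by simpa using h2
  have v1 : V * diagonal (fun _ => ((1 : ℝ) : ℂ)) * Vᴴ = 1 := by simpa using k2
  have t1 := trace_two U V (fun _ => 1) fun j => Real.exp (c j)
  have t2 := trace_two U V (fun i => Real.exp (a i)) fun _ => 1
  have t3 := trace_two U V (fun i => Real.exp (a i)) c
  have t4 := trace_two U V (fun i => a i * Real.exp (a i)) fun _ => 1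
  have e4 : U * diagonal (fun i => ((a i * Real.exp (a i) : ℝ) : ℂ)) * Uᴴ = A * exp A := by
    rw [h4]
    conv_rhs => rw [h3]
    have : ∀ X Y : Matrix m m ℂ, U * X * Uᴴ * (U * Y * Uᴴ) = U * (X * Y) * Uᴴ := fun X Y => by
      calc U * X * Uᴴ * (U * Y * Uᴴ) = U * X * (Uᴴ * U) * Y * Uᴴ := by simp only [Matrix.mul_assoc]
        _ = _ := by rw [h1]; simp only [Matrix.mul_assoc, Matrix.mul_one]
    rw [this, diagonal_mul_diagonal]
    simp
  rw [u1, ← k4, Matrix.mul_one] at t1
  rw [v1, ← h4, Matrix.one_mul] at t2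
  rw [← k3, ← h4] at t3
  rw [v1, e4, Matrix.one_mul] at t4
  set Z := (exp A).trace.re with hZd
  set s := ((C - A) * exp A).trace.re / Z with hs
  have hs' : s * Z = (C * exp A).trace.re - (A * exp A).trace.re := by
    rw [hs, div_mul_cancel₀ _ hZ.ne', Matrix.sub_mul, trace_sub, Complex.sub_re]
  have key : Real.exp s * (Z + (C * exp A).trace.re - (A * exp A).trace.re - s * Z) ≤
      (exp C).trace.re := by
    rw [t1, t3, t4]
    conv_lhs => rw [t2]
    simp only [Finset.mul_sum, ← Finset.sum_add_distrib, ← Finset.sum_sub_distrib]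
    refine Finset.sum_le_sum fun i _ => Finset.sum_le_sum fun j _ => ?_
    have p0 := Complex.normSq_nonneg ((Uᴴ * V) i j)
    have p1 := Real.add_one_le_exp (c j - a i - s)
    have p2 : Real.exp (c j) = Real.exp s * Real.exp (a i) * Real.exp (c j - a i - s) := by
      rw [← Real.exp_add, ← Real.exp_add]; congr 1; ring
    have p3 := mul_le_mul_of_nonneg_left p1
      (mul_nonneg p0 (mul_pos (Real.exp_pos s) (Real.exp_pos (a i))).le)
    rw [p2]
    linarith
  have key2 : Real.exp s * Z ≤ (exp C).trace.re := by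
    refine le_trans (le_of_eq ?_) key
    rw [hs']; ring
  have := Real.log_le_log (mul_pos (Real.exp_pos s) hZ) key2
  rw [Real.log_mul (Real.exp_pos s).ne' hZ.ne', Real.log_exp] at this
  linarith

end Crest.Agent.N337.KMS
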