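import Crest.Agent.N337.KMS.Loc

/-! # Row 337, S0528 (helper9): compression to a finite volume and Gibbs states. -/

set_option autoImplicit false

open Filter Topology Crest.MathPhysics.SpinModel Crest.MathPhysics.SpinModel.Infinite NormedSpace
open scoped Nat

namespace Crest.Agent.N337.KMS

/-- the multiplicative domain of a unital linear map -/
def mdomG {A M : Type*} [Ring A] [Algebra ℂ A] [Ring M] [Algebra ℂ M] (f : A →ₗ[ℂ] M)
    (h1 : f 1 = 1) : Subalgebra ℂ A where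
  carrier := {T | ∀ S, f (S * T) = f S * f T ∧ f (T * S) = f T * f S}
  mul_mem' {T U} hT hU S := by
    constructor
    · rw [← mul_assoc, (hU _).1, (hT _).1, (hT _).2, mul_assoc]
    · rw [mul_assoc, (hT _).2, (hU _).2, (hT _).2, mul_assoc]
  add_mem' {T U} hT hU S := by
    rw [mul_add, add_mul, map_add, map_add, map_add, (hT _).1, (hU _).1, (hT _).2, (hU _).2,
      mul_add, add_mul]
    exact ⟨rfl, rfl⟩
  algebraMap_mem' r S := by
    simp only [Algebra.algebraMap_eq_smul_one, mul_smul_comm, smul_mul_assoc, mul_one, one_mul,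
      map_smul, h1, and_self]

variable {d n : ℕ} {X : Type} [Fintype X] [DecidableEq X]

/-- extension of a configuration by level `0` -/
noncomputable def ext (ι : X ↪ (Fin d → ℤ)) (σ : X → Fin (n + 1)) : FinConfig d n :=
  Finsupp.embDomain ι (Finsupp.equivFunOnFinite.symm σ)

variable (ι : X ↪ (Fin d → ℤ))

omit [DecidableEq X] in
theorem ext_apply (σ : X → Fin (n + 1)) (y : X) : ext ι σ (ι y) = σ y := by
  unfold ext
  rw [Finsupp.embDomain_apply_self]
  rfl

omit [DecidableEq X] in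
theorem ext_inj {σ τ : X → Fin (n + 1)} : ext ι σ = ext ι τ ↔ σ = τ :=
  ⟨fun h => funext fun y => by rw [← ext_apply ι σ, h, ext_apply], fun h => h ▸ rfl⟩

theorem ext_update (σ : X → Fin (n + 1)) (y : X) (b : Fin (n + 1)) :
    (ext ι σ).update (ι y) b = ext ι (Function.update σ y b) := by
  ext u
  rw [Finsupp.update_apply]
  by_cases h : u ∈ Set.range ι
  · obtain ⟨x, rfl⟩ := h
    simp only [ext_apply, Function.update_apply, ι.injective.eq_iff]
  · rw [if_neg fun e => h ⟨y, e.symm⟩]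
    unfold ext
    rw [Finsupp.embDomain_of_notMem_range _ _ _ h, Finsupp.embDomain_of_notMem_range _ _ _ h]

/-- compression to the configurations supported in the range of `ι` -/
noncomputable def cmp : quasiLocal d n →ₗ[ℂ] Matrix (X → Fin (n + 1)) (X → Fin (n + 1)) ℂ where
  toFun T := Matrix.of fun σ τ => T.1 (bv (ext ι τ)) (ext ι σ)
  map_add' _ _ := rfl
  map_smul' _ _ := rfl

omit [DecidableEq X] in
theorem cmp_apply (T : quasiLocal d n) (σ τ : X → Fin (n + 1)) :
    cmp ι T σ τ = T.1 (bv (ext ι τ)) (ext ι σ) := rfl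

omit [DecidableEq X] in
theorem continuous_cmp : Continuous (cmp (n := n) ι) := by
  refine continuous_matrix fun σ τ => ?_
  simp only [cmp_apply, ← inner_bv]
  fun_prop

omit [DecidableEq X] in
theorem cmp_one : cmp ι (1 : quasiLocal d n) = 1 := by
  ext σ τ
  rw [cmp_apply, Matrix.one_apply]
  change bv (ext ι τ) (ext ι σ) = _
  simp only [bv_apply, ext_inj]

/-- the multiplicative domain of the compression -/
noncomputable def mdom (n : ℕ) : Subalgebra ℂ (quasiLocal d n) := mdomG (cmp ι) (cmp_one ι)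

variable {ι}

theorem cmp_mul_right {T : quasiLocal d n} (hT : T ∈ mdom ι n) (S : quasiLocal d n) :
    cmp ι (S * T) = cmp ι S * cmp ι T := (hT S).1

theorem cmp_mul_left {T : quasiLocal d n} (hT : T ∈ mdom ι n) (S : quasiLocal d n) :
    cmp ι (T * S) = cmp ι T * cmp ι S := (hT S).2

theorem isClosed_mdom : IsClosed (mdom ι n : Set (quasiLocal d n)) := by
  have hc := continuous_cmp (n := n) ι
  change IsClosed {T | ∀ S, cmp ι (S * T) = cmp ι S * cmp ι T ∧ cmp ι (T * S) = cmp ι T * cmp ι S}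
  rw [Set.ofPred_forall]
  refine isClosed_iInter fun S => IsClosed.inter (isClosed_eq ?_ ?_) (isClosed_eq ?_ ?_)
  · exact hc.comp (continuous_const.mul continuous_id)
  · exact continuous_const.mul hc
  · exact hc.comp (continuous_id.mul continuous_const)
  · exact hc.mul continuous_const

theorem cmp_localUnit (y : X) (a b : Fin (n + 1)) (σ τ : X → Fin (n + 1)) :
    cmp ι (localUnit (ι y) a b) σ τ = if σ y = a ∧ Function.update σ y b = τ then 1 else 0 := by
  rw [cmp_apply]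
  change siteUnit (ι y) a b (bv (ext ι τ)) (ext ι σ) = _
  simp only [siteUnit_apply, ext_apply, ext_update, bv_apply, ext_inj, ite_and]

omit [Fintype X] in
theorem upd_iff (y : X) (a b : Fin (n + 1)) (σ τ : X → Fin (n + 1)) :
    (σ y = a ∧ Function.update σ y b = τ) ↔ (τ y = b ∧ σ = Function.update τ y a) := by
  constructor
  · rintro ⟨rfl, rfl⟩
    simp
  · rintro ⟨rfl, rfl⟩
    simp

theorem localUnit_mem_mdom (y : X) (a b : Fin (n + 1)) : localUnit (ι y) a b ∈ mdom ι n := by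
  intro S
  constructor <;> ext σ τ <;> rw [Matrix.mul_apply, cmp_apply]
  · change S.1 (siteUnit (ι y) a b (bv (ext ι τ))) (ext ι σ) = _
    simp only [cmp_localUnit, upd_iff, siteUnit_bv, ext_apply, ext_update, ite_and]
    split_ifs
    · simp [cmp_apply]
    · simp
  · change siteUnit (ι y) a b (S.1 (bv (ext ι τ))) (ext ι σ) = _
    simp only [cmp_localUnit, siteUnit_apply, ext_apply, ext_update, ite_and]
    split_ifs
    · simp [cmp_apply]
    · simp

theorem loc_le_mdom : loc n (Finset.univ.map ι) ≤ mdom ι n := by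
  refine Algebra.adjoin_le ?_
  rintro _ ⟨x, hx, a, b, rfl⟩
  obtain ⟨y, -, rfl⟩ := Finset.mem_map.1 hx
  exact localUnit_mem_mdom y a b

theorem exp_mem_mdom {T : quasiLocal d n} (hT : T ∈ mdom ι n) : exp T ∈ mdom ι n := by
  rw [exp_eq_tsum ℂ]
  exact tsum_mem isClosed_mdom fun k => Subalgebra.smul_mem _ (pow_mem hT k) _

theorem cmp_exp {T : quasiLocal d n} (hT : T ∈ mdom ι n) : cmp ι (exp T) = exp (cmp ι T) := by
  have e : ∀ k : ℕ, cmp ι (T ^ k) = cmp ι T ^ k := fun k => by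
    induction k with
    | zero => simp [cmp_one]
    | succ k ih => rw [pow_succ, pow_succ, cmp_mul_right hT, ih]
  have h := (exp_series_hasSum_exp' (𝕂 := ℂ) T).map (cmp ι) (continuous_cmp ι)
  rw [exp_eq_tsum ℂ (𝔸 := Matrix _ _ ℂ), ← h.tsum_eq]
  simp only [Function.comp_def, map_smul, e]

theorem al_mem_mdom {H B : quasiLocal d n} (hH : H ∈ mdom ι n) (hB : B ∈ mdom ι n) (z : ℂ) :
    al H z B ∈ mdom ι n :=
  mul_mem (mul_mem (exp_mem_mdom (Subalgebra.smul_mem _ hH _)) hB)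
    (exp_mem_mdom (Subalgebra.smul_mem _ hH _))

theorem cmp_siteMatrix (y : X) (A : Matrix (Fin (n + 1)) (Fin (n + 1)) ℂ) :
    cmp ι (siteMatrix (ι y) A) = siteOpOn y A := by
  ext σ τ
  unfold siteMatrix siteOpOn
  simp only [map_sum, map_smul, Matrix.sum_apply, Matrix.smul_apply, cmp_localUnit, ite_and,
    Matrix.of_apply, smul_eq_mul, mul_ite, mul_one, mul_zero]
  rw [Finset.sum_comm]
  simp only [Finset.sum_ite_eq, Finset.mem_univ, if_true]
  have e : ∀ b, Function.update σ y b = τ ↔ (τ y = b ∧ ∀ z, z ≠ y → σ z = τ z) := fun b => by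
    rw [Function.update_eq_iff, eq_comm]
  simp only [e, ite_and, Finset.sum_ite_eq, Finset.mem_univ, if_true]

theorem cmp_spinDot (x y : X) : cmp ι (spinDot n (ι x) (ι y)) = spinDotOn n x y := by
  have h : ∀ A B : Matrix (Fin (n + 1)) (Fin (n + 1)) ℂ,
      cmp ι (siteMatrix (ι x) A * siteMatrix (ι y) B) = siteOpOn x A * siteOpOn y B := fun A B => by
    rw [cmp_mul_right (loc_le_mdom (siteMatrix_mem (Finset.mem_map_of_mem _ (Finset.mem_univ y)) B)),
      cmp_siteMatrix, cmp_siteMatrix]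
  unfold spinDot spinDotOn
  simp only [map_add, map_smul, h]

variable (ι)

/-- the trace over the finite volume -/
noncomputable def trL : quasiLocal d n →L[ℂ] ℂ where
  toLinearMap := (Matrix.traceLinearMap _ ℂ ℂ).comp (cmp ι)
  cont := (continuous_cmp ι).matrix_trace

theorem trL_apply (T : quasiLocal d n) : trL ι T = (cmp ι T).trace := rfl

theorem trL_sand {E : quasiLocal d n} (hE : IsSelfAdjoint E) (A : quasiLocal d n) :
    trL ι (E * A * E) = ∑ σ, inner ℂ (E.1 (bv (ext ι σ))) (A.1 (E.1 (bv (ext ι σ)))) := by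
  rw [trL_apply, Matrix.trace]
  refine Finset.sum_congr rfl fun σ _ => ?_
  rw [Matrix.diag_apply, cmp_apply, ← inner_bv]
  have : ContinuousLinearMap.adjoint E.1 = E.1 := congrArg Subtype.val hE.star_eq
  change inner ℂ _ (E.1 (A.1 (E.1 _))) = _
  rw [← ContinuousLinearMap.adjoint_inner_left, this]

variable {ι} in
theorem trL_comm {T : quasiLocal d n} (hT : T ∈ mdom ι n) (S : quasiLocal d n) :
    trL ι (S * T) = trL ι (T * S) := by
  rw [trL_apply, trL_apply, cmp_mul_right hT, cmp_mul_left hT, Matrix.trace_mul_comm]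

/-- the Gibbs state of `H` in the finite volume -/
noncomputable def gb (H : quasiLocal d n) (β : ℝ) : quasiLocal d n →L[ℂ] ℂ :=
  (trL ι (exp (-((β / 2 : ℝ) : ℂ) • H) * 1 * exp (-((β / 2 : ℝ) : ℂ) • H)))⁻¹ •
    (trL ι).comp (ContinuousLinearMap.mulLeftRight ℂ _ (exp (-((β / 2 : ℝ) : ℂ) • H))
      (exp (-((β / 2 : ℝ) : ℂ) • H)))

theorem gb_apply (H : quasiLocal d n) (β : ℝ) (A : quasiLocal d n) : gb ι H β A =
    (trL ι (exp (-((β / 2 : ℝ) : ℂ) • H) * 1 * exp (-((β / 2 : ℝ) : ℂ) • H)))⁻¹ *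
      trL ι (exp (-((β / 2 : ℝ) : ℂ) • H) * A * exp (-((β / 2 : ℝ) : ℂ) • H)) := rfl

/-- a state of norm at most one -/
def St (ω : quasiLocal d n →L[ℂ] ℂ) : Prop := IsState ω ∧ ∀ A, ‖ω A‖ ≤ ‖A‖

theorem gb_st {H : quasiLocal d n} (hH : IsSelfAdjoint H) (β : ℝ) : St (gb ι H β) := by
  have hE : IsSelfAdjoint (exp (-((β / 2 : ℝ) : ℂ) • H)) := by
    unfold IsSelfAdjoint
    rw [star_exp_smul hH, map_neg, Complex.conj_ofReal]
  have hF := exp_smul_neg H ((β / 2 : ℝ) : ℂ)
  simp only [St, IsState, gb_apply, trL_sand ι hE]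
  generalize exp (-((β / 2 : ℝ) : ℂ) • H) = E at hE hF
  set v : (X → Fin (n + 1)) → Ell2 d n := fun σ => E.1 (bv (ext ι σ)) with hv
  have hv0 : ∀ σ, 0 < ‖v σ‖ := fun σ => by
    refine norm_pos_iff.2 fun h => ?_
    have h1 : (exp (((β / 2 : ℝ) : ℂ) • H) * E).1 (bv (ext ι σ)) = 0 := by
      change (exp (((β / 2 : ℝ) : ℂ) • H)).1 (v σ) = 0
      rw [h, map_zero]
    rw [hF] at h1
    have h2 : bv (ext ι σ) (ext ι σ) = 0 := congrFun (congrArg Subtype.val h1) _
    simp [bv_apply] at h2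
  have hz : 0 < ∑ σ, ‖v σ‖ ^ 2 :=
    Finset.sum_pos (fun σ _ => pow_pos (hv0 σ) 2) Finset.univ_nonempty
  have e1 : ∑ σ, inner ℂ (v σ) ((1 : quasiLocal d n).1 (v σ)) = ((∑ σ, ‖v σ‖ ^ 2 : ℝ) : ℂ) := by
    push_cast
    exact Finset.sum_congr rfl fun σ _ => inner_self_eq_norm_sq_to_K _
  change (_ * ∑ σ, inner ℂ (v σ) ((1 : quasiLocal d n).1 (v σ)) = 1 ∧ ∀ A : quasiLocal d n,
    (_ * ∑ σ, inner ℂ (v σ) ((star A * A).1 (v σ))).im = 0 ∧
    0 ≤ (_ * ∑ σ, inner ℂ (v σ) ((star A * A).1 (v σ))).re) ∧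
    ∀ A : quasiLocal d n, ‖_ * ∑ σ, inner ℂ (v σ) (A.1 (v σ))‖ ≤ ‖A‖
  rw [e1]
  refine ⟨⟨inv_mul_cancel₀ (by exact_mod_cast hz.ne'), fun A => ?_⟩, fun A => ?_⟩
  · have e2 : ∑ σ, inner ℂ (v σ) ((star A * A).1 (v σ)) = ((∑ σ, ‖A.1 (v σ)‖ ^ 2 : ℝ) : ℂ) := by
      push_cast
      refine Finset.sum_congr rfl fun σ _ => ?_
      change inner ℂ _ (ContinuousLinearMap.adjoint A.1 (A.1 (v σ))) = _
      rw [ContinuousLinearMap.adjoint_inner_right]
      exact inner_self_eq_norm_sq_to_K _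
    rw [e2, ← Complex.ofReal_inv, ← Complex.ofReal_mul, Complex.ofReal_im, Complex.ofReal_re]
    exact ⟨rfl, by positivity⟩
  · rw [norm_mul, norm_inv, Complex.norm_real, Real.norm_of_nonneg hz.le,
      inv_mul_le_iff₀ hz, Finset.sum_mul]
    refine (norm_sum_le _ _).trans (Finset.sum_le_sum fun σ _ => ?_)
    refine (norm_inner_le_norm _ _).trans ?_
    have := mul_le_mul_of_nonneg_left (A.1.le_opNorm (v σ)) (hv0 σ).le
    change _ ≤ _ * ‖A.1‖
    linarith

variable {ι}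

theorem gb_kms {H B : quasiLocal d n} (hH : IsSelfAdjoint H) (hH' : H ∈ mdom ι n)
    (hB : B ∈ mdom ι n) (β : ℝ) (A : quasiLocal d n) :
    KF β (fun t => gb ι H β (A * al H t B)) (fun t => gb ι H β (al H t B * A)) := by
  refine kf_al hH _ β A B fun t => ?_
  have hB' := al_mem_mdom hH' hB t
  generalize al H t B = B' at hB'
  rw [gb_apply, gb_apply]
  congr 1
  have e1 : Complex.I * (β * Complex.I) = -((β / 2 : ℝ) : ℂ) + -((β / 2 : ℝ) : ℂ) := by
    push_cast
    linear_combination (β : ℂ) * Complex.I_mul_I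
  have e2 : -(-((β / 2 : ℝ) : ℂ) + -((β / 2 : ℝ) : ℂ)) = ((β / 2 : ℝ) : ℂ) + ((β / 2 : ℝ) : ℂ) := by
    ring
  have hF := exp_smul_neg H ((β / 2 : ℝ) : ℂ)
  have hE' := exp_mem_mdom (Subalgebra.smul_mem _ hH' (-((β / 2 : ℝ) : ℂ)))
  have hF' := exp_mem_mdom (Subalgebra.smul_mem _ hH' ((β / 2 : ℝ) : ℂ))
  unfold al
  rw [e1, e2, exp_smul_add, exp_smul_add]
  generalize exp (-((β / 2 : ℝ) : ℂ) • H) = E at hF hE'
  generalize exp (((β / 2 : ℝ) : ℂ) • H) = F at hF hF'
  have a1 : E * (A * (E * E * B' * (F * F))) * E = E * A * E * (E * B' * F) * (F * E) := by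
    simp only [mul_assoc]
  have a2 : E * B' * F * (E * A * E) = E * B' * (F * E) * A * E := by simp only [mul_assoc]
  rw [a1, hF, mul_one, trL_comm (mul_mem (mul_mem hE' hB') hF'), a2, hF, mul_one, mul_assoc E B' A]

theorem gb_eq {H : quasiLocal d n} (hH' : H ∈ mdom ι n) (β : ℝ) (A : quasiLocal d n) :
    gb ι H β A =
      (cmp ι A * exp (-(β : ℂ) • cmp ι H)).trace / (exp (-(β : ℂ) • cmp ι H)).trace := by
  have hE' := exp_mem_mdom (Subalgebra.smul_mem _ hH' (-((β / 2 : ℝ) : ℂ)))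
  have key : ∀ A : quasiLocal d n,
      trL ι (exp (-((β / 2 : ℝ) : ℂ) • H) * A * exp (-((β / 2 : ℝ) : ℂ) • H)) =
        (cmp ι A * exp (-(β : ℂ) • cmp ι H)).trace := fun A => by
    have e : -((β / 2 : ℝ) : ℂ) + -((β / 2 : ℝ) : ℂ) = -(β : ℂ) := by push_cast; ring
    rw [mul_assoc, ← trL_comm hE', mul_assoc, ← exp_smul_add, e, trL_apply,
      cmp_mul_right (exp_mem_mdom (Subalgebra.smul_mem _ hH' _)),
      cmp_exp (Subalgebra.smul_mem _ hH' _), map_smul]
  rw [gb_apply, key, key, cmp_one, Matrix.one_mul, div_eq_inv_mul]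

end Crest.Agent.N337.KMS
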