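import Crest.Agent.N337.KMS.Dyn

/-! # Row 337, S0528 (helper9): limits of averaged finite-volume KMS states are KMS states. -/

set_option autoImplicit false

open Filter Topology

namespace Crest.Agent.N337.KMS

/-- average over a finite set -/
noncomputable def avg {J : Type*} (s : Finset J) (F : J → ℂ) : ℂ := (s.card : ℂ)⁻¹ * ∑ j ∈ s, F j

theorem norm_avg_le {J : Type*} {s : Finset J} {F : J → ℂ} {c : ℝ} (hc : 0 ≤ c)
    (h : ∀ j ∈ s, ‖F j‖ ≤ c) : ‖avg s F‖ ≤ c := by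
  unfold avg
  rw [norm_mul, norm_inv, Complex.norm_natCast]
  have h1 : ‖∑ j ∈ s, F j‖ ≤ s.card * c := by
    refine (norm_sum_le _ _).trans ?_
    simpa using Finset.sum_le_card_nsmul s _ c h
  rcases Nat.eq_zero_or_pos s.card with h0 | h0
  · simp [h0, hc]
  · rw [inv_mul_le_iff₀ (by exact_mod_cast h0)]
    exact h1

theorem avg_sub {J : Type*} (s : Finset J) (F F' : J → ℂ) :
    avg s F - avg s F' = avg s fun j => F j - F' j := by
  unfold avg
  rw [Finset.sum_sub_distrib, mul_sub]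

theorem KF.avg {β : ℝ} {J : Type*} (s : Finset J) {f g : J → ℝ → ℂ}
    (h : ∀ j ∈ s, KF β (f j) (g j)) :
    KF β (fun t => avg s fun j => f j t) (fun t => avg s fun j => g j t) :=
  (KF.sum s h).const_mul _

variable {𝔄 : Type*} [CStarAlgebra 𝔄] {ι κ J : Type*} {l : Filter ι} {G : ι → Prop} {H : ι → 𝔄}
  {Loc : ℕ → 𝔄 → Prop} {K : ℝ} {τ : ℝ → 𝔄 → 𝔄} {U : Filter κ} {s : κ → Finset J}
  {i : κ → J → ι} {ω : κ → J → 𝔄 →L[ℂ] ℂ} {ω₀ : 𝔄 →L[ℂ] ℂ}

theorem conv_avg [U.NeBot] (h : LocSys l G H Loc K)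
    (hτ : ∀ (t : ℝ) B, Tendsto (fun i => al (H i) t B) l (𝓝 (τ t B)))
    (hω : ∀ k j A, ‖ω k j A‖ ≤ ‖A‖)
    (hP : ∀ P : ι → Prop, (∀ᶠ i in l, P i) → ∀ᶠ k in U, ∀ j ∈ s k, P (i k j))
    (h₀ : ∀ A, Tendsto (fun k => avg (s k) fun j => ω k j A) U (𝓝 (ω₀ A)))
    (Ψ : 𝔄 →L[ℂ] 𝔄) {m : ℕ} {B : 𝔄} (hB : Loc m B) (ε : ℝ) (hε : 0 < ε) (R : ℝ) :
    ∀ᶠ k in U, ∀ t : ℝ, |t| ≤ R →
      ‖(avg (s k) fun j => ω k j (Ψ (al (H (i k j)) t B))) - ω₀ (Ψ (τ t B))‖ ≤ ε := by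
  have hK := h.K0
  have key : ∀ k j (C D : 𝔄), ‖ω k j (Ψ C) - ω k j (Ψ D)‖ ≤ ‖Ψ‖ * ‖C - D‖ := fun k j C D => by
    rw [← map_sub, ← map_sub]
    exact (hω _ _ _).trans (Ψ.le_opNorm _)
  refine unif_of_lip (f := fun k t => avg (s k) fun j => ω k j (Ψ (al (H (i k j)) t B)))
    (f₀ := fun t => ω₀ (Ψ (τ t B))) (L := ‖Ψ‖ * (K * m * ‖B‖)) (by positivity) ?_ (fun t => ?_)
    ε hε R
  · filter_upwards [hP G h.ev] with k hk a b
    rw [avg_sub]
    refine norm_avg_le (by positivity) fun j hj => (key _ _ _ _).trans ?_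
    rw [mul_assoc]
    refine mul_le_mul_of_nonneg_left ((norm_al_sub (h.sa _) B a b).trans ?_) (norm_nonneg _)
    exact mul_le_mul_of_nonneg_right (h.comm_le (hk j hj) hB) (abs_nonneg _)
  · refine (h₀ (Ψ (τ t B))).congr_dist (Metric.tendsto_nhds.2 fun δ hδ => ?_)
    have hΨ : 0 < ‖Ψ‖ + 1 := by positivity
    filter_upwards [hP _ (Metric.tendsto_nhds.1 (hτ t B) (δ / 2 / (‖Ψ‖ + 1)) (by positivity))]
      with k hk
    rw [Real.dist_eq, sub_zero, abs_of_nonneg dist_nonneg, dist_comm, dist_eq_norm, avg_sub]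
    refine lt_of_le_of_lt (norm_avg_le (c := δ / 2) (by positivity) fun j hj =>
      (key _ _ _ _).trans ?_) (by linarith)
    have := hk j hj
    rw [dist_eq_norm, lt_div_iff₀ hΨ] at this
    nlinarith [norm_nonneg (al (H (i k j)) t B - τ t B)]

/-- **the KMS condition passes to the limit** -/
theorem kms_limit [l.NeBot] [U.NeBot] {β : ℝ} (hβ : 0 < β) (h : LocSys l G H Loc K)
    (hτ : ∀ (t : ℝ) B, Tendsto (fun i => al (H i) t B) l (𝓝 (τ t B)))
    (hω : ∀ k j A, ‖ω k j A‖ ≤ ‖A‖)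
    (hP : ∀ P : ι → Prop, (∀ᶠ i in l, P i) → ∀ᶠ k in U, ∀ j ∈ s k, P (i k j))
    (h₀ : ∀ A, Tendsto (fun k => avg (s k) fun j => ω k j A) U (𝓝 (ω₀ A)))
    (hK : ∀ m B, Loc m B → ∀ᶠ k in U, ∀ j ∈ s k, ∀ A,
      KF β (fun t => ω k j (A * al (H (i k j)) t B)) (fun t => ω k j (al (H (i k j)) t B * A)))
    (A B : 𝔄) : KF β (fun t => ω₀ (A * τ t B)) (fun t => ω₀ (τ t B * A)) := by
  have hloc : ∀ m B, Loc m B → KF β (fun t => ω₀ (A * τ t B)) (fun t => ω₀ (τ t B * A)) := by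
    intro m B hB
    refine KF.limit (l := U) hβ (C := ‖A‖ * ‖B‖)
      ((hK m B hB).mono fun k hk => KF.avg (s k) fun j hj => hk j hj A)
      (Eventually.of_forall fun k t => ⟨?_, ?_⟩) fun ε hε R => ?_
    · refine norm_avg_le (by positivity) fun j _ => (hω _ _ _).trans ((norm_mul_le _ _).trans ?_)
      exact mul_le_mul_of_nonneg_left (norm_al (h.sa _) t B) (norm_nonneg _)
    · refine norm_avg_le (by positivity) fun j _ => (hω _ _ _).trans ((norm_mul_le _ _).trans ?_)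
      rw [mul_comm]
      exact mul_le_mul_of_nonneg_left (norm_al (h.sa _) t B) (norm_nonneg _)
    · filter_upwards [conv_avg h hτ hω hP h₀ (ContinuousLinearMap.mul ℂ 𝔄 A) hB ε hε R,
        conv_avg h hτ hω hP h₀ ((ContinuousLinearMap.mul ℂ 𝔄).flip A) hB ε hε R] with k a b t ht
      exact ⟨a t ht, b t ht⟩
  have hn : ∀ A, ‖ω₀ A‖ ≤ ‖A‖ := fun A => le_of_tendsto (h₀ A).norm
    (Eventually.of_forall fun k => norm_avg_le (norm_nonneg _) fun j _ => hω _ _ _)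
  have hτ1 : ∀ (t : ℝ) B, ‖τ t B‖ ≤ ‖B‖ := fun t B =>
    le_of_tendsto (hτ t B).norm (Eventually.of_forall fun i => norm_al (h.sa i) t B)
  have hτ2 : ∀ (t : ℝ) B C, ‖τ t B - τ t C‖ ≤ ‖B - C‖ := fun t B C =>
    le_of_tendsto ((hτ t B).sub (hτ t C)).norm (Eventually.of_forall fun i => by
      rw [← al_sub]; exact norm_al (h.sa i) t _)
  choose m B' hB' hd using fun j : ℕ => h.dense B (1 / ((j : ℝ) + 1)) (by positivity)
  have hA := norm_nonneg A
  refine KF.limit (l := atTop) hβ (C := ‖A‖ * (‖B‖ + 1))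
    (Eventually.of_forall fun j => hloc (m j) (B' j) (hB' j))
    (Eventually.of_forall fun j t => ?_) fun ε hε R => ?_
  · have a1 : ‖τ t (B' j)‖ ≤ ‖B‖ + 1 := by
      have a2 := norm_sub_norm_le (B' j) B
      rw [norm_sub_rev] at a2
      have a3 : 1 / ((j : ℝ) + 1) ≤ 1 := by
        rw [div_le_one (by positivity)]; linarith [(Nat.cast_nonneg j : (0 : ℝ) ≤ j)]
      linarith [hτ1 t (B' j), hd j]
    exact ⟨(hn _).trans ((norm_mul_le _ _).trans (mul_le_mul_of_nonneg_left a1 hA)),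
      (hn _).trans ((norm_mul_le _ _).trans (by
        rw [mul_comm]; exact mul_le_mul_of_nonneg_left a1 hA))⟩
  · have a0 : Tendsto (fun j : ℕ => ‖A‖ * (1 / ((j : ℝ) + 1))) atTop (𝓝 (‖A‖ * 0)) :=
      tendsto_one_div_add_atTop_nhds_zero_nat.const_mul _
    rw [mul_zero] at a0
    filter_upwards [a0.eventually (ge_mem_nhds hε)] with j hj t _
    have a1 : ‖A‖ * ‖τ t (B' j) - τ t B‖ ≤ ε := by
      refine le_trans (mul_le_mul_of_nonneg_left ((hτ2 t _ _).trans ?_) hA) hj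
      rw [norm_sub_rev]
      exact hd j
    rw [← map_sub, ← map_sub, ← mul_sub, ← sub_mul]
    exact ⟨(hn _).trans ((norm_mul_le _ _).trans a1),
      (hn _).trans ((norm_mul_le _ _).trans (by rw [mul_comm]; exact a1))⟩

/-- ultrafilter limit of averaged functionals -/
theorem exists_limit (U : Ultrafilter κ) (s : κ → Finset J) (ω : κ → J → 𝔄 →L[ℂ] ℂ)
    (hω : ∀ k j A, ‖ω k j A‖ ≤ ‖A‖) :
    ∃ ω₀ : 𝔄 →L[ℂ] ℂ, ∀ A, Tendsto (fun k => avg (s k) fun j => ω k j A) U (𝓝 (ω₀ A)) := by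
  have hb : ∀ k A, ‖avg (s k) fun j => ω k j A‖ ≤ ‖A‖ := fun k A =>
    norm_avg_le (norm_nonneg _) fun j _ => hω _ _ _
  have hex : ∀ A, ∃ a, Tendsto (fun k => avg (s k) fun j => ω k j A) U (𝓝 a) := fun A => by
    obtain ⟨a, -, ha⟩ := (isCompact_closedBall (0 : ℂ) ‖A‖).ultrafilter_le_nhds
      (U.map fun k => avg (s k) fun j => ω k j A) (by
        rw [le_principal_iff, Ultrafilter.mem_coe, Ultrafilter.mem_map]
        exact Filter.univ_mem' fun k => by simpa using hb k A)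
    exact ⟨a, ha⟩
  choose a ha using hex
  refine ⟨LinearMap.mkContinuous ⟨⟨a, fun A B => ?_⟩, fun c A => ?_⟩ 1 fun A => ?_, ha⟩
  · refine tendsto_nhds_unique (ha (A + B)) (((ha A).add (ha B)).congr fun k => ?_)
    simp only [avg, map_add, Finset.sum_add_distrib, mul_add]
  · refine tendsto_nhds_unique (ha (c • A)) (((ha A).const_smul c).congr fun k => ?_)
    simp only [avg, map_smul, smul_eq_mul, ← Finset.mul_sum]
    ring
  · rw [one_mul]
    exact le_of_tendsto (ha A).norm (Eventually.of_forall fun k => hb k A)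

theorem norm_sum_sub_sum {J : Type*} [DecidableEq J] {C S T : Finset J} (hS : C ⊆ S) (hT : C ⊆ T)
    {f : J → ℂ} {a : ℝ} (hf : ∀ j, ‖f j‖ ≤ a) :
    ‖∑ j ∈ S, f j - ∑ j ∈ T, f j‖ ≤ ((S.card : ℝ) - C.card) * a + ((T.card : ℝ) - C.card) * a := by
  have key : ∀ S : Finset J, C ⊆ S → ‖∑ j ∈ S \ C, f j‖ ≤ ((S.card : ℝ) - C.card) * a :=
    fun S hS => by
      refine (norm_sum_le _ _).trans ?_
      have := Finset.sum_le_card_nsmul (S \ C) (fun j => ‖f j‖) a fun j _ => hf j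
      rw [nsmul_eq_mul, Finset.card_sdiff_of_subset hS, Nat.cast_sub (Finset.card_le_card hS)] at this
      exact this
  rw [← Finset.sum_sdiff hS, ← Finset.sum_sdiff hT, add_sub_add_right_eq_sub]
  exact (norm_sub_le _ _).trans (add_le_add (key S hS) (key T hT))

end Crest.Agent.N337.KMS
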