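import Crest.Prelude.Def_QuasiLocal
import Crest.Agent.N337.KMS.Dyn

/-! # Row 337, S0528 (helper9): local algebras and the infinite-volume dynamics. -/

set_option autoImplicit false

open Filter Topology Crest.MathPhysics.SpinModel Crest.MathPhysics.SpinModel.Infinite

namespace Crest.Agent.N337.KMS

variable {d n : ℕ}

instance isClosed_ql : IsClosed ((quasiLocal d n : StarSubalgebra ℂ (Ell2 d n →L[ℂ] Ell2 d n)) :
    Set (Ell2 d n →L[ℂ] Ell2 d n)) :=
  StarSubalgebra.isClosed_topologicalClosure _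

noncomputable instance cstar_ql : CStarAlgebra (quasiLocal d n) :=
  StarSubalgebra.cstarAlgebra (quasiLocal d n)

/-- basis vector -/
noncomputable def bv (c : FinConfig d n) : Ell2 d n := lp.single 2 c (1 : ℂ)

theorem bv_apply (c c' : FinConfig d n) : bv c c' = if c' = c then 1 else 0 := by
  unfold bv
  rw [lp.single_apply, Pi.single_apply]

theorem inner_bv (c : FinConfig d n) (v : Ell2 d n) : inner ℂ (bv c) v = v c := by
  unfold bv
  rw [lp.inner_single_left]
  simp

theorem siteUnit_apply (x : Fin d → ℤ) (a b : Fin (n + 1)) (v : Ell2 d n) (c : FinConfig d n) :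
    siteUnit x a b v c = if c x = a then v (c.update x b) else 0 := by
  change (if c x = a then v (c.update x (Equiv.swap a b (c x))) else 0) = _
  split_ifs with h
  · rw [h, Equiv.swap_apply_left]
  · rfl

theorem siteUnit_bv (x : Fin d → ℤ) (a b : Fin (n + 1)) (c : FinConfig d n) :
    siteUnit x a b (bv c) = if c x = b then bv (c.update x a) else 0 := by
  ext c'
  rw [siteUnit_apply, bv_apply]
  by_cases h : c x = b
  · rw [if_pos h, bv_apply]
    by_cases h1 : c' = c.update x a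
    · subst h1
      simp [← h]
    · rw [if_neg h1]
      split_ifs with h2 h3
      · refine (h1 ?_).elim
        rw [← h3, ← h2]
        simp
      · rfl
      · rfl
  · rw [if_neg h]
    split_ifs with h2 h3
    · refine (h ?_).elim
      rw [← h3]
      simp
    · rfl
    · rfl

theorem op_ext {S T : Ell2 d n →L[ℂ] Ell2 d n} (h : ∀ c, S (bv c) = T (bv c)) : S = T := by
  refine lp.ext_continuousLinearMap (by norm_num) fun c => ?_
  ext1
  exact h c

theorem star_localUnit (x : Fin d → ℤ) (a b : Fin (n + 1)) :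
    star (localUnit x a b) = localUnit x b a := by
  refine Subtype.ext (op_ext fun c => ?_)
  ext c'
  change (ContinuousLinearMap.adjoint (siteUnit x a b)) (bv c) c' = siteUnit x b a (bv c) c'
  rw [← inner_bv c', ContinuousLinearMap.adjoint_inner_right, siteUnit_bv, siteUnit_apply]
  split_ifs
  · rw [inner_bv]
  · simp

theorem commute_localUnit {x y : Fin d → ℤ} (h : x ≠ y) (a b a' b' : Fin (n + 1)) :
    Commute (localUnit x a b) (localUnit y a' b') := by
  refine Subtype.ext ?_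
  ext v c
  change siteUnit x a b (siteUnit y a' b' v) c = siteUnit y a' b' (siteUnit x a b v) c
  simp only [siteUnit_apply, Finsupp.update_apply, if_neg h, if_neg h.symm]
  rw [Finsupp.update_comm c h]
  split_ifs <;> rfl

theorem norm_localUnit (x : Fin d → ℤ) (a b : Fin (n + 1)) : ‖localUnit x a b‖ ≤ 1 := by
  change ‖siteUnit x a b‖ ≤ 1
  unfold siteUnit
  refine (ContinuousLinearMap.opNorm_comp_le _ _).trans ?_
  exact mul_le_one₀ (LinearMap.mkContinuous_norm_le _ zero_le_one _) (norm_nonneg _)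
    (LinearMap.mkContinuous_norm_le _ zero_le_one _)

/-- the local algebra of a finite set of sites -/
noncomputable def loc (n : ℕ) (X : Finset (Fin d → ℤ)) : Subalgebra ℂ (quasiLocal d n) :=
  Algebra.adjoin ℂ {T | ∃ x ∈ X, ∃ a b, T = localUnit x a b}

theorem loc_mono {X Y : Finset (Fin d → ℤ)} (h : X ⊆ Y) : loc n X ≤ loc n Y :=
  Algebra.adjoin_mono fun _ ⟨x, hx, hT⟩ => ⟨x, h hx, hT⟩

theorem localUnit_mem {X : Finset (Fin d → ℤ)} {x : Fin d → ℤ} (hx : x ∈ X) (a b : Fin (n + 1)) :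
    localUnit x a b ∈ loc n X :=
  Algebra.subset_adjoin ⟨x, hx, a, b, rfl⟩

theorem commute_loc {X Y : Finset (Fin d → ℤ)} (h : Disjoint X Y) {S T : quasiLocal d n}
    (hS : S ∈ loc n X) (hT : T ∈ loc n Y) : Commute S T := by
  refine Algebra.commute_of_mem_adjoin_of_forall_mem_commute hT ?_
  rintro _ ⟨y, hy, a, b, rfl⟩
  refine (Algebra.commute_of_mem_adjoin_of_forall_mem_commute hS ?_).symm
  rintro _ ⟨x, hx, a', b', rfl⟩
  exact commute_localUnit (fun e : y = x => Finset.disjoint_left.1 h hx (e ▸ hy)) _ _ _ _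

theorem star_mem_loc {X : Finset (Fin d → ℤ)} {S : quasiLocal d n} (hS : S ∈ loc n X) :
    star S ∈ loc n X := by
  induction hS using Algebra.adjoin_induction with
  | mem _ h =>
    obtain ⟨x, hx, a, b, rfl⟩ := h
    rw [star_localUnit]
    exact localUnit_mem hx _ _
  | algebraMap r =>
    rw [← algebraMap_star_comm]
    exact Subalgebra.algebraMap_mem _ _
  | add _ _ _ _ h1 h2 => rw [star_add]; exact add_mem h1 h2
  | mul _ _ _ _ h1 h2 => rw [star_mul]; exact mul_mem h2 h1

theorem exists_loc_near (B : quasiLocal d n) {ε : ℝ} (hε : 0 < ε) :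
    ∃ X, ∃ B' ∈ loc n X, ‖B - B'‖ ≤ ε := by
  obtain ⟨T, hT, hd⟩ := Metric.mem_closure_iff.1 B.2 ε hε
  have key : ∃ X : Finset (Fin d → ℤ), ∃ B' ∈ loc n X, B'.1 = T := by
    clear hd
    induction hT using StarAlgebra.adjoin_induction with
    | mem _ h =>
      obtain ⟨⟨x, a, b⟩, rfl⟩ := h
      exact ⟨{x}, localUnit x a b, localUnit_mem (Finset.mem_singleton_self _) _ _, rfl⟩
    | algebraMap r => exact ⟨∅, algebraMap ℂ _ r, Subalgebra.algebraMap_mem _ _, rfl⟩
    | add _ _ _ _ h1 h2 =>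
      obtain ⟨X, B₁, h3, rfl⟩ := h1
      obtain ⟨Y, B₂, h4, rfl⟩ := h2
      exact ⟨X ∪ Y, B₁ + B₂, add_mem (loc_mono Finset.subset_union_left h3)
        (loc_mono Finset.subset_union_right h4), rfl⟩
    | mul _ _ _ _ h1 h2 =>
      obtain ⟨X, B₁, h3, rfl⟩ := h1
      obtain ⟨Y, B₂, h4, rfl⟩ := h2
      exact ⟨X ∪ Y, B₁ * B₂, mul_mem (loc_mono Finset.subset_union_left h3)
        (loc_mono Finset.subset_union_right h4), rfl⟩
    | star _ _ h1 =>
      obtain ⟨X, B₁, h3, rfl⟩ := h1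
      exact ⟨X, star B₁, star_mem_loc h3, rfl⟩
  obtain ⟨X, B', h1, rfl⟩ := key
  rw [dist_eq_norm] at hd
  exact ⟨X, B', h1, hd.le⟩

theorem siteMatrix_mem {X : Finset (Fin d → ℤ)} {x : Fin d → ℤ} (hx : x ∈ X)
    (A : Matrix (Fin (n + 1)) (Fin (n + 1)) ℂ) : siteMatrix x A ∈ loc n X :=
  sum_mem fun a _ => sum_mem fun b _ => Subalgebra.smul_mem _ (localUnit_mem hx a b) _

theorem star_siteMatrix (x : Fin d → ℤ) (A : Matrix (Fin (n + 1)) (Fin (n + 1)) ℂ) :
    star (siteMatrix x A) = siteMatrix x A.conjTranspose := by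
  unfold siteMatrix
  rw [Finset.sum_comm]
  simp only [star_sum, star_smul, star_localUnit, Matrix.conjTranspose_apply]

theorem norm_siteMatrix (x : Fin d → ℤ) (A : Matrix (Fin (n + 1)) (Fin (n + 1)) ℂ) :
    ‖siteMatrix x A‖ ≤ ∑ a, ∑ b, ‖A a b‖ := by
  refine (norm_sum_le _ _).trans (Finset.sum_le_sum fun a _ => ?_)
  refine (norm_sum_le _ _).trans (Finset.sum_le_sum fun b _ => ?_)
  rw [norm_smul]
  exact mul_le_of_le_one_right (norm_nonneg _) (norm_localUnit _ _ _)

theorem spinZ_conj (n : ℕ) : (spinZ n).conjTranspose = spinZ n := by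
  unfold spinZ
  rw [Matrix.diagonal_conjTranspose]
  congr 1
  funext i
  simp

theorem spinDot_mem {X : Finset (Fin d → ℤ)} {x y : Fin d → ℤ} (hx : x ∈ X) (hy : y ∈ X) :
    spinDot n x y ∈ loc n X :=
  add_mem (mul_mem (siteMatrix_mem hx _) (siteMatrix_mem hy _)) (Subalgebra.smul_mem _
    (add_mem (mul_mem (siteMatrix_mem hx _) (siteMatrix_mem hy _))
      (mul_mem (siteMatrix_mem hx _) (siteMatrix_mem hy _))) _)

theorem star_spinDot (x y : Fin d → ℤ) : star (spinDot n x y) = spinDot n y x := by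
  unfold spinDot
  simp only [star_add, star_mul, star_smul, star_siteMatrix, spinZ_conj, spinMinus,
    Matrix.conjTranspose_conjTranspose]
  simp

theorem exists_bound (d n : ℕ) : ∃ K : ℝ, 0 < K ∧ (∀ x y : Fin d → ℤ, ‖spinDot n x y‖ ≤ K) ∧
    ∀ x : Fin d → ℤ, ‖siteMatrix x (spinZ n)‖ ≤ K := by
  set z := ∑ a, ∑ b, ‖spinZ n a b‖
  set p := ∑ a, ∑ b, ‖spinPlus n a b‖
  set m := ∑ a, ∑ b, ‖spinMinus n a b‖
  have hz : 0 ≤ z := by positivity
  have hp : 0 ≤ p := by positivity
  have hm : 0 ≤ m := by positivity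
  refine ⟨z * z + p * m + z + 1, by positivity, fun x y => ?_, fun x => ?_⟩
  · have mu : ∀ A B : Matrix (Fin (n + 1)) (Fin (n + 1)) ℂ, ‖siteMatrix x A * siteMatrix y B‖ ≤
        (∑ a, ∑ b, ‖A a b‖) * ∑ a, ∑ b, ‖B a b‖ := fun A B =>
      (norm_mul_le _ _).trans (mul_le_mul (norm_siteMatrix _ _) (norm_siteMatrix _ _)
        (norm_nonneg _) (by positivity))
    have h1 := mu (spinZ n) (spinZ n)
    have h2 := mu (spinPlus n) (spinMinus n)
    have h3 := mu (spinMinus n) (spinPlus n)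
    unfold spinDot
    refine (norm_add_le _ _).trans ?_
    rw [norm_smul]
    have h4 := norm_add_le (siteMatrix x (spinPlus n) * siteMatrix y (spinMinus n))
      (siteMatrix x (spinMinus n) * siteMatrix y (spinPlus n))
    have h5 : ‖(1 / 2 : ℂ)‖ = 1 / 2 := by simp
    rw [h5]
    nlinarith
  · exact (norm_siteMatrix _ _).trans (by nlinarith [mul_nonneg hz hz, mul_nonneg hp hm])

theorem isNearest_symm {x y : Fin d → ℤ} : IsNearest x y ↔ IsNearest y x := by
  unfold IsNearest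
  simp only [abs_sub_comm]

/-- the Hamiltonian of a finite set in a field -/
noncomputable def Hf (n : ℕ) (i : Finset (Fin d → ℤ) × ℝ) : quasiLocal d n :=
  localHamiltonian n i.1 - (i.2 : ℂ) • ∑ x ∈ i.1, siteMatrix x (spinZ n)

theorem Hf_sa (i : Finset (Fin d → ℤ) × ℝ) : IsSelfAdjoint (Hf n i) := by
  unfold Hf localHamiltonian IsSelfAdjoint
  simp only [star_sub, star_smul, star_sum, star_siteMatrix, spinZ_conj, apply_ite star,
    star_spinDot, star_zero]
  rw [Finset.sum_comm]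
  simp only [isNearest_symm]
  simp

theorem Hf_mem (i : Finset (Fin d → ℤ) × ℝ) : Hf n i ∈ loc n i.1 := by
  refine sub_mem (Subalgebra.smul_mem _ (sum_mem fun x hx => sum_mem fun y hy => ?_) _)
    (Subalgebra.smul_mem _ (sum_mem fun x hx => siteMatrix_mem hx _) _)
  split_ifs
  · exact spinDot_mem hx hy
  · exact zero_mem _

theorem sum_restrict {J M : Type*} [DecidableEq J] [AddCommGroup M] [Module ℂ M] (s t : Finset J)
    (f : J → M) (h : ∀ j, j ∉ t → f j = 0) (c : ℂ) :
    c • ∑ j ∈ s, f j = ∑ j ∈ t, (if j ∈ s then c else 0) • f j := by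
  simp only [ite_smul, zero_smul]
  rw [Finset.sum_ite_mem, Finset.smul_sum]
  refine (Finset.sum_subset Finset.inter_subset_right fun j hj hj' => ?_).symm
  rw [h j fun h' => hj' (Finset.mem_inter.2 ⟨h', hj⟩), smul_zero]

/-- the filter `Λ ↑ ℤ^d`, `h → 0` -/
def lim0 (d : ℕ) : Filter (Finset (Fin d → ℤ) × ℝ) := atTop ×ˢ 𝓝 0

instance : (lim0 d).NeBot := by unfold lim0; infer_instance

theorem tendsto_fst0 : Tendsto Prod.fst (lim0 d) atTop := tendsto_fst

theorem tendsto_snd0 : Tendsto Prod.snd (lim0 d) (𝓝 0) := tendsto_snd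

theorem ev_mem (x : Fin d → ℤ) : ∀ᶠ i in lim0 d, x ∈ i.1 :=
  tendsto_fst0.eventually ((eventually_ge_atTop ({x} : Finset (Fin d → ℤ))).mono fun _ h =>
    Finset.singleton_subset_iff.1 h)

/-- localised in at most `m` sites -/
def Loc (m : ℕ) (B : quasiLocal d n) : Prop := ∃ X : Finset (Fin d → ℤ), X.card ≤ m ∧ B ∈ loc n X

theorem norm_comm_le {K : ℝ} {S : quasiLocal d n} (hS : ‖S‖ ≤ K) (B : quasiLocal d n) :
    ‖S * B - B * S‖ ≤ 2 * K * ‖B‖ := by
  have h1 := norm_sub_le (S * B) (B * S)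
  have h2 := norm_mul_le S B
  have h3 := norm_mul_le B S
  have h4 := mul_le_mul_of_nonneg_right hS (norm_nonneg B)
  linarith

theorem locSys (d n : ℕ) : ∃ K : ℝ, LocSys (lim0 d) (fun i => |i.2| ≤ 1) (Hf n) Loc K := by
  classical
  obtain ⟨K, hK, h1, h2⟩ := exists_bound d n
  refine ⟨(2 * 3 ^ d + 1) * (2 * K), by positivity, ?_, Hf_sa, fun m B hB => ?_, fun B ε hε => ?_⟩
  · refine tendsto_snd0.eventually (p := fun h : ℝ => |h| ≤ 1) ?_
    filter_upwards [Icc_mem_nhds (show (-1 : ℝ) < 0 by norm_num) (show (0 : ℝ) < 1 by norm_num)]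
      with h hh using abs_le.2 hh
  swap
  · obtain ⟨X, B', h3, h4⟩ := exists_loc_near B hε
    exact ⟨X.card, B', ⟨X, le_rfl, h3⟩, h4⟩
  obtain ⟨X, hX, hB⟩ := hB
  let N : (Fin d → ℤ) → Finset (Fin d → ℤ) := fun x =>
    Fintype.piFinset fun a => Finset.Icc (x a - 1) (x a + 1)
  have hN : ∀ x, (N x).card = 3 ^ d := fun x => by
    simp only [N, Fintype.card_piFinset, Int.card_Icc]
    rw [Finset.prod_congr rfl (g := fun _ => 3) fun a _ => by omega]
    simp
  have hNm : ∀ x y, IsNearest x y → y ∈ N x := fun x y h => by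
    refine Fintype.mem_piFinset.2 fun a => Finset.mem_Icc.2 ?_
    have := Finset.single_le_sum (f := fun a => |x a - y a|) (fun a _ => abs_nonneg _)
      (Finset.mem_univ a)
    unfold IsNearest at h
    rw [h, abs_le] at this
    omega
  let P : Finset ((Fin d → ℤ) × (Fin d → ℤ)) :=
    (X.biUnion fun x => (N x).image fun y => (x, y)) ∪ X.biUnion fun x => (N x).image fun y => (y, x)
  have hP : P.card ≤ 2 * 3 ^ d * m := by
    have a1 := Finset.card_biUnion_le_card_mul X (fun x => (N x).image fun y => (x, y)) (3 ^ d)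
      fun x _ => Finset.card_image_le.trans (hN x).le
    have a2 := Finset.card_biUnion_le_card_mul X (fun x => (N x).image fun y => (y, x)) (3 ^ d)
      fun x _ => Finset.card_image_le.trans (hN x).le
    have a3 := Nat.mul_le_mul_right (3 ^ d) hX
    refine (Finset.card_union_le _ _).trans ?_
    nlinarith
  let Φ : (Fin d → ℤ) × (Fin d → ℤ) → quasiLocal d n := fun p =>
    if IsNearest p.1 p.2 then spinDot n p.1 p.2 else 0
  have hΦ : ∀ p, ‖Φ p‖ ≤ K := fun p => by
    simp only [Φ]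
    split_ifs
    · exact h1 _ _
    · simpa using hK.le
  have hΦm : ∀ (p) (Y : Finset (Fin d → ℤ)), p.1 ∈ Y → p.2 ∈ Y → Φ p ∈ loc n Y :=
    fun p Y a1 a2 => by
      simp only [Φ]
      split_ifs
      · exact spinDot_mem a1 a2
      · exact zero_mem _
  have hΦ0 : ∀ p, p ∉ P → Φ p * B - B * Φ p = 0 := fun p hp => by
    by_cases hn : IsNearest p.1 p.2
    · refine sub_eq_zero.2 (commute_loc (X := {p.1, p.2}) ?_ (hΦm p _ (by simp) (by simp)) hB)
      rw [Finset.disjoint_left]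
      intro u hu huX
      refine hp (Finset.mem_union.2 ?_)
      rcases Finset.mem_insert.1 hu with rfl | hu
      · exact Or.inl (Finset.mem_biUnion.2 ⟨_, huX, Finset.mem_image.2 ⟨p.2, hNm _ _ hn, rfl⟩⟩)
      · rw [Finset.mem_singleton] at hu
        subst hu
        exact Or.inr (Finset.mem_biUnion.2 ⟨_, huX, Finset.mem_image.2
          ⟨p.1, hNm _ _ (isNearest_symm.1 hn), rfl⟩⟩)
    · simp [Φ, hn]
  have hZ0 : ∀ x, x ∉ X → siteMatrix x (spinZ n) * B - B * siteMatrix x (spinZ n) = 0 :=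
    fun x hx => sub_eq_zero.2 (commute_loc (X := {x}) (Finset.disjoint_singleton_left.2 hx)
      (siteMatrix_mem (Finset.mem_singleton_self _) _) hB)
  have hloc : ∀ (S : quasiLocal d n) (u : Fin d → ℤ), S ∈ loc n (insert u X) →
      Loc (m + 1) (S * B - B * S) := fun S u hS =>
    ⟨insert u X, (Finset.card_insert_le _ _).trans (by omega),
      sub_mem (mul_mem hS (loc_mono (Finset.subset_insert _ _) hB))
        (mul_mem (loc_mono (Finset.subset_insert _ _) hB) hS)⟩
  have D1 : Dec (lim0 d) (fun i => |i.2| ≤ 1) (Loc (m + 1)) (P.card * (2 * K * ‖B‖)) fun i =>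
      ∑ p ∈ P, (if p ∈ i.1 ×ˢ i.1 then -(1 / 2 : ℂ) else 0) • (Φ p * B - B * Φ p) := by
    refine Dec.sum P fun p hp => (Dec.single (c₀ := -(1 / 2 : ℂ)) ?_ (fun i _ => ?_) ?_).mono
      (norm_comm_le (hΦ p) B)
    · rcases Finset.mem_union.1 hp with hp | hp <;>
        obtain ⟨x, hx, hp⟩ := Finset.mem_biUnion.1 hp <;>
        obtain ⟨y, -, rfl⟩ := Finset.mem_image.1 hp
      · exact hloc _ y (hΦm _ _ (Finset.mem_insert_of_mem hx) (Finset.mem_insert_self _ _))
      · exact hloc _ y (hΦm _ _ (Finset.mem_insert_self _ _) (Finset.mem_insert_of_mem hx))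
    · split_ifs <;> norm_num
    · refine tendsto_const_nhds.congr' ?_
      filter_upwards [ev_mem p.1, ev_mem p.2] with i a1 a2
      rw [if_pos (Finset.mem_product.2 ⟨a1, a2⟩)]
  have D2 : Dec (lim0 d) (fun i => |i.2| ≤ 1) (Loc (m + 1)) (X.card * (2 * K * ‖B‖)) fun i =>
      ∑ x ∈ X, (if x ∈ i.1 then -(i.2 : ℂ) else 0) •
        (siteMatrix x (spinZ n) * B - B * siteMatrix x (spinZ n)) := by
    refine Dec.sum X fun x hx => (Dec.single (c₀ := -((0 : ℝ) : ℂ)) ?_ (fun i hi => ?_) ?_).mono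
      (norm_comm_le (h2 x) B)
    · exact hloc _ x (siteMatrix_mem (Finset.mem_insert_self _ _) _)
    · split_ifs
      · simpa using hi
      · simp
    · refine ((Complex.continuous_ofReal.tendsto 0).comp tendsto_snd0).neg.congr' ?_
      filter_upwards [ev_mem x] with i a1
      rw [if_pos a1]
      rfl
  have e : ∀ i : Finset (Fin d → ℤ) × ℝ, Hf n i * B - B * Hf n i =
      ∑ p ∈ P, (if p ∈ i.1 ×ˢ i.1 then -(1 / 2 : ℂ) else 0) • (Φ p * B - B * Φ p) +
      ∑ x ∈ X, (if x ∈ i.1 then -(i.2 : ℂ) else 0) •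
        (siteMatrix x (spinZ n) * B - B * siteMatrix x (spinZ n)) := fun i => by
    rw [← sum_restrict _ _ _ hΦ0, ← sum_restrict _ _ _ hZ0, Finset.sum_sub_distrib,
      Finset.sum_sub_distrib, ← Finset.sum_mul, ← Finset.mul_sum, ← Finset.sum_mul,
      ← Finset.mul_sum, Finset.sum_product]
    unfold Hf localHamiltonian
    simp only [Φ, sub_mul, mul_sub, smul_mul_assoc, mul_smul_comm, smul_sub, neg_smul, neg_mul,
      mul_neg]
    abel
  simp only [e]
  refine (D1.add D2).mono ?_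
  have a1 : (P.card : ℝ) ≤ 2 * 3 ^ d * m := by exact_mod_cast hP
  have a2 : (X.card : ℝ) ≤ m := by exact_mod_cast hX
  have a3 : 0 ≤ 2 * K * ‖B‖ := by positivity
  nlinarith [mul_le_mul_of_nonneg_right a1 a3, mul_le_mul_of_nonneg_right a2 a3]

theorem mem_box {N : ℕ} {x : Fin d → ℤ} : x ∈ box d N ↔ ∀ a, -(N : ℤ) ≤ x a ∧ x a ≤ N := by
  simp [box, Fintype.mem_piFinset]

theorem exists_subset_box (X : Finset (Fin d → ℤ)) : ∃ r : ℕ, ∀ N, r ≤ N → X ⊆ box d N := by
  refine ⟨X.sup fun x => Finset.univ.sup fun a => (x a).natAbs, fun N hN x hx => ?_⟩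
  refine mem_box.2 fun a => ?_
  have h1 : (x a).natAbs ≤ Finset.univ.sup fun a => (x a).natAbs :=
    Finset.le_sup (f := fun a => (x a).natAbs) (Finset.mem_univ a)
  have h2 := Finset.le_sup (f := fun x : Fin d → ℤ => Finset.univ.sup fun a => (x a).natAbs) hx
  omega

theorem tendsto_box (d : ℕ) : Tendsto (box d) atTop atTop :=
  tendsto_atTop.2 fun X =>
    let ⟨r, hr⟩ := exists_subset_box X
    (eventually_ge_atTop r).mono hr

/-- the dynamics converge along all exhaustions with vanishing field -/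
theorem tendsto_dyn {τ : ℝ → quasiLocal d n → quasiLocal d n}
    (hτ : ∀ (t : ℝ) (A : quasiLocal d n),
      Tendsto (fun N : ℕ => boxDynamics d n N t A) atTop (𝓝 (τ t A))) (t : ℝ)
    (B : quasiLocal d n) : Tendsto (fun i => al (Hf n i) t B) (lim0 d) (𝓝 (τ t B)) := by
  obtain ⟨K, hK⟩ := locSys d n
  obtain ⟨L, hL⟩ := hK.conv t B
  have h1 : Tendsto (fun N : ℕ => (box d N, (0 : ℝ))) atTop (lim0 d) :=
    (tendsto_box d).prodMk tendsto_const_nhds
  have h2 : L = τ t B := by
    refine tendsto_nhds_unique (hL.comp h1) ((hτ t B).congr fun N => ?_)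
    simp [al, Hf, boxDynamics]
  rwa [← h2]

end Crest.Agent.N337.KMS
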