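import Crest.Agent.N337.Defs
import Crest.Agent.N337.KMS.Comp
import Crest.Agent.N337.KMS.Lim
import Crest.Agent.N337.KMS.PB

/-! # Row 337, S0528 (helper9): a magnetised translation-invariant KMS state. -/

set_option autoImplicit false

open Filter Topology Crest.MathPhysics.SpinModel Crest.MathPhysics.SpinModel.Infinite NormedSpace

namespace Crest.Agent.N337.KMS

variable {d n : ℕ}

/-- the box of half-width `N` centred at `-x` -/
def bx (N : ℕ) (x : Fin d → ℤ) : Box d N ↪ (Fin d → ℤ) :=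
  ⟨fun y => coord y - x, fun y y' h => funext fun a => Fin.ext (by
    have := congrFun h a
    simp only [coord, Pi.sub_apply] at this
    omega)⟩

theorem bx_apply (N : ℕ) (x : Fin d → ℤ) (y : Box d N) : bx N x y = coord y - x := rfl

/-- the sites of the shifted box -/
def Lam (N : ℕ) (x : Fin d → ℤ) : Finset (Fin d → ℤ) := Finset.univ.map (bx N x)

theorem exists_coord {N : ℕ} {u : Fin d → ℤ} (h : u ∈ box d N) : ∃ y : Box d N, coord y = u := by
  rw [mem_box] at h
  refine ⟨fun a => ⟨(u a + N).toNat, by have := h a; omega⟩, funext fun a => ?_⟩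
  have := h a
  simp only [coord]
  omega

theorem coord_mem {N : ℕ} (y : Box d N) : coord y ∈ box d N :=
  mem_box.2 fun a => by
    have := (y a).2
    simp only [coord]
    omega

theorem mem_Lam {N : ℕ} {x u : Fin d → ℤ} (h : u + x ∈ box d N) : u ∈ Lam N x := by
  obtain ⟨y, hy⟩ := exists_coord h
  exact Finset.mem_map.2 ⟨y, Finset.mem_univ _, by rw [bx_apply, hy, add_sub_cancel_right]⟩

theorem add_mem_box {M k : ℕ} {x u : Fin d → ℤ} (hu : u ∈ box d k) (hx : x ∈ box d M) :
    u + x ∈ box d (M + k) :=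
  mem_box.2 fun a => by
    have := mem_box.1 hu a
    have := mem_box.1 hx a
    simp only [Pi.add_apply]
    omega

theorem box_eq (d N : ℕ) : box d N = Lam N 0 := by
  ext u
  refine ⟨fun h => mem_Lam (by simpa using h), fun h => ?_⟩
  obtain ⟨y, -, rfl⟩ := Finset.mem_map.1 h
  simpa [bx_apply] using coord_mem y

theorem card_box (d N : ℕ) : (box d N).card = (2 * N + 1) ^ d := by
  rw [box_eq, Lam, Finset.card_map]
  simp

theorem box_mono {M N : ℕ} (h : M ≤ N) : box d M ⊆ box d N := fun u hu =>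
  mem_box.2 fun a => by have := mem_box.1 hu a; omega

theorem ratio (d k : ℕ) :
    Tendsto (fun M : ℕ => ((box d (M + k)).card : ℝ) / (box d M).card) atTop (𝓝 1) := by
  have h1 : Tendsto (fun M : ℕ => (2 * k : ℝ) / (2 * M + 1)) atTop (𝓝 0) :=
    tendsto_const_nhds.div_atTop (tendsto_atTop_add_const_right _ _
      (tendsto_natCast_atTop_atTop.const_mul_atTop two_pos))
  have h2 := (h1.const_add 1).pow d
  rw [add_zero, one_pow] at h2
  refine h2.congr fun M => ?_
  rw [card_box, card_box]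
  push_cast
  rw [← div_pow]
  congr 1
  field_simp
  ring

/-- the matrix Hamiltonian of the box -/
noncomputable def Hm (d N n : ℕ) (h : ℝ) : Matrix (Config d N n) (Config d N n) ℂ :=
  hamiltonian n (nnCoupling d) - (h : ℂ) • totalSpinZ n

theorem cmp_Hf (N : ℕ) (x : Fin d → ℤ) (h : ℝ) : cmp (bx N x) (Hf n (Lam N x, h)) = Hm d N n h := by
  unfold Hf localHamiltonian Lam Hm hamiltonian totalSpinZ
  simp only [map_sub, map_smul, map_sum, Finset.sum_map, cmp_siteMatrix]
  congr 2
  refine Finset.sum_congr rfl fun y _ => Finset.sum_congr rfl fun z _ => ?_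
  have e : IsNearest (bx N x y) (bx N x z) ↔ ∑ a, |(coord z - coord y) a| = 1 := by
    rw [isNearest_symm]
    unfold IsNearest
    simp [bx_apply]
  unfold nnCoupling
  by_cases hn : IsNearest (bx N x y) (bx N x z)
  · rw [if_pos hn, if_pos (e.1 hn), cmp_spinDot, Complex.ofReal_one, one_smul]
    rfl
  · rw [if_neg hn, if_neg fun h' => hn (e.2 h'), map_zero, Complex.ofReal_zero, zero_smul]

theorem cmp_star {X : Type} [Fintype X] (ι : X ↪ (Fin d → ℤ)) (T : quasiLocal d n) :
    cmp ι (star T) = (cmp ι T).conjTranspose := by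
  ext σ τ
  rw [Matrix.conjTranspose_apply, cmp_apply, cmp_apply, ← inner_bv, ← inner_bv]
  change inner ℂ _ (ContinuousLinearMap.adjoint T.1 _) = _
  rw [ContinuousLinearMap.adjoint_inner_right]
  exact (inner_conj_symm _ _).symm

theorem Hm_herm (d N n : ℕ) (h : ℝ) : (Hm d N n h).IsHermitian := by
  unfold Matrix.IsHermitian
  rw [← cmp_Hf N 0 h, ← cmp_star, (Hf_sa _).star_eq]

/-- the finite-volume Gibbs state of the shifted box -/
noncomputable def om (n N : ℕ) (β h : ℝ) (x : Fin d → ℤ) : quasiLocal d n →L[ℂ] ℂ :=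
  gb (bx N x) (Hf n (Lam N x, h)) β

theorem om_st (N : ℕ) (β h : ℝ) (x : Fin d → ℤ) : St (om n N β h x) := gb_st _ (Hf_sa _) β

theorem om_eq (N : ℕ) (β h : ℝ) (x : Fin d → ℤ) (A : quasiLocal d n) : om n N β h x A =
    (cmp (bx N x) A * exp (-(β : ℂ) • Hm d N n h)).trace / (exp (-(β : ℂ) • Hm d N n h)).trace := by
  rw [om, gb_eq (loc_le_mdom (Hf_mem (Lam N x, h))), cmp_Hf]

theorem om_kms {N : ℕ} {x : Fin d → ℤ} {B : quasiLocal d n} (hB : B ∈ loc n (Lam N x)) (β h : ℝ)
    (A : quasiLocal d n) : KF β (fun t => om n N β h x (A * al (Hf n (Lam N x, h)) t B))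
      (fun t => om n N β h x (al (Hf n (Lam N x, h)) t B * A)) :=
  gb_kms (Hf_sa _) (loc_le_mdom (Hf_mem (Lam N x, h))) (loc_le_mdom hB) β A

theorem om_shift (N : ℕ) (β h : ℝ) (x z : Fin d → ℤ)
    (w : List ((Fin d → ℤ) × Fin (n + 1) × Fin (n + 1))) (hw : ∀ g ∈ w, g.1 + z + x ∈ box d N) :
    om n N β h x (w.map fun g => localUnit (g.1 + z) g.2.1 g.2.2).prod =
      om n N β h (x + z) (w.map fun g => localUnit g.1 g.2.1 g.2.2).prod := by
  rw [om_eq, om_eq]
  congr 3
  induction w with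
  | nil => rw [List.map_nil, List.map_nil, List.prod_nil, cmp_one, cmp_one]
  | cons g w ih =>
    obtain ⟨y, hy⟩ := exists_coord (hw g List.mem_cons_self)
    have e1 : g.1 + z = bx N x y := by rw [bx_apply, hy, add_sub_cancel_right]
    have e2 : g.1 = bx N (x + z) y := by rw [bx_apply, hy]; abel
    rw [List.map_cons, List.map_cons, List.prod_cons, List.prod_cons, e1,
      cmp_mul_left (localUnit_mem_mdom y _ _), ih fun g hg => hw g (List.mem_cons_of_mem _ hg)]
    conv_rhs => rw [e2, cmp_mul_left (localUnit_mem_mdom y _ _)]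
    congr 1
    ext σ τ
    rw [cmp_localUnit, cmp_localUnit]

theorem sum_om {β h : ℝ} (hβ : 0 < β) (hh : 0 < h) (N : ℕ) :
    (finitePressure d N n (nnCoupling d) β h - finitePressure d N n (nnCoupling d) β 0) / h *
      (box d N).card ≤ ∑ x ∈ box d N, (om n N β h x (siteMatrix 0 (spinZ n))).re := by
  have hA : ∀ h : ℝ, (-(β : ℂ) • Hm d N n h).IsHermitian := fun h => by
    unfold Matrix.IsHermitian
    rw [Matrix.conjTranspose_smul, (Hm_herm d N n h).eq]
    simp
  have pb := peierls (hA h) (hA 0)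
  obtain ⟨z1, z2⟩ := trace_exp_pos (hA h)
  have e1 : -(β : ℂ) • Hm d N n 0 - -(β : ℂ) • Hm d N n h =
      ((-(β * h) : ℝ) : ℂ) • totalSpinZ n := by
    unfold Hm
    push_cast
    module
  have e2 : ∑ x ∈ box d N, (om n N β h x (siteMatrix 0 (spinZ n))).re =
      (totalSpinZ n * exp (-(β : ℂ) • Hm d N n h)).trace.re /
        (exp (-(β : ℂ) • Hm d N n h)).trace.re := by
    rw [box_eq, Lam, Finset.sum_map, totalSpinZ, Finset.sum_mul, Matrix.trace_sum, Complex.re_sum,
      Finset.sum_div]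
    refine Finset.sum_congr rfl fun y _ => ?_
    have e3 : (0 : Fin d → ℤ) = bx N (bx N 0 y) y := by simp [bx_apply]
    have e5 := cmp_siteMatrix (ι := bx N (bx N 0 y)) y (spinZ n)
    rw [← e3] at e5
    rw [om_eq, e5]
    have e4 : (exp (-(β : ℂ) • Hm d N n h)).trace = ((exp (-(β : ℂ) • Hm d N n h)).trace.re : ℂ) :=
      Complex.ext rfl (by simpa using z2)
    conv_lhs => rw [e4, Complex.div_ofReal_re]
    rfl
  rw [e1, Matrix.smul_mul, Matrix.trace_smul, smul_eq_mul, Complex.re_ofReal_mul, mul_div_assoc,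
    ← e2] at pb
  have p1 : finitePressure d N n (nnCoupling d) β h =
      Real.log (exp (-(β : ℂ) • Hm d N n h)).trace.re / (β * (box d N).card) := by
    rw [card_box]; push_cast; unfold finitePressure; push_cast; rfl
  have p2 : finitePressure d N n (nnCoupling d) β 0 =
      Real.log (exp (-(β : ℂ) • Hm d N n 0)).trace.re / (β * (box d N).card) := by
    rw [card_box]; push_cast; unfold finitePressure; push_cast; rfl
  have hc : (0 : ℝ) < (box d N).card := by rw [card_box]; positivity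
  rw [p1, p2, ← sub_div, div_div, div_mul_eq_mul_div, div_le_iff₀ (by positivity)]
  nlinarith [mul_le_mul_of_nonneg_right pb hc.le]

theorem avg_re {J : Type*} (s : Finset J) (F : J → ℂ) :
    (avg s F).re = (∑ j ∈ s, (F j).re) / s.card := by
  unfold avg
  rw [← Complex.ofReal_natCast, ← Complex.ofReal_inv, Complex.re_ofReal_mul, Complex.re_sum,
    div_eq_inv_mul]

theorem avg_im {J : Type*} (s : Finset J) (F : J → ℂ) :
    (avg s F).im = (∑ j ∈ s, (F j).im) / s.card := by
  unfold avg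
  rw [← Complex.ofReal_natCast, ← Complex.ofReal_inv, Complex.im_ofReal_mul, Complex.im_sum,
    div_eq_inv_mul]

/-- the bulk average of the magnetisation -/
theorem exists_mag {p : ℝ → ℝ → ℝ} (hp : IsPressure d n (nnCoupling d) p) {β h c : ℝ} (hβ : 0 < β)
    (hh : 0 < h) (hc : c < (p β h - p β 0) / h) (k : ℕ) :
    ∀ᶠ M in atTop, c ≤ (avg (box d M) fun x => om n (M + k) β h x (siteMatrix 0 (spinZ n))).re := by
  set K := ‖siteMatrix (d := d) 0 (spinZ n)‖
  have h1 := (((((hp β hβ h).sub (hp β hβ 0)).div_const h).comp (tendsto_add_atTop_nat k)).mul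
    (ratio d k)).sub (((ratio d k).sub_const 1).mul_const K)
  rw [mul_one, sub_self, zero_mul, sub_zero] at h1
  filter_upwards [h1.eventually (lt_mem_nhds hc)] with M hM
  have a1 := sum_om (d := d) (n := n) hβ hh (M + k)
  have hsub := box_mono (d := d) (Nat.le_add_right M k)
  rw [← Finset.sum_sdiff hsub] at a1
  have a2 := Finset.sum_le_card_nsmul (box d (M + k) \ box d M)
    (fun x => (om n (M + k) β h x (siteMatrix 0 (spinZ n))).re) K fun x _ =>
      (Complex.re_le_norm _).trans ((om_st _ _ _ _).2 _)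
  rw [nsmul_eq_mul, Finset.card_sdiff_of_subset hsub, Nat.cast_sub (Finset.card_le_card hsub)] at a2
  have hc0 : (0 : ℝ) < (box d M).card := by rw [card_box]; positivity
  rw [avg_re]
  refine hM.le.trans ?_
  rw [le_div_iff₀ hc0]
  simp only [Function.comp]
  have e : ∀ q a b : ℝ, b ≠ 0 → (q * (a / b) - (a / b - 1) * K) * b = q * a - (a - b) * K := by
    intro q a b hb
    field_simp
  rw [e _ _ _ hc0.ne']
  linarith

theorem IsState.im_sa {ω : quasiLocal d n →L[ℂ] ℂ} (h : IsState ω) {A : quasiLocal d n}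
    (hA : star A = A) : (ω A).im = 0 := by
  have h1 := (h.2 (A + 1)).1
  have h2 := (h.2 (A - 1)).1
  have e : star (A + 1) * (A + 1) = star (A - 1) * (A - 1) + (A + A + A + A) := by
    rw [star_add, star_sub, hA, star_one]
    noncomm_ring
  rw [e] at h1
  simp only [map_add, Complex.add_im] at h1
  linarith

theorem avg_shift {M r M' : ℕ} (hM : M + r = M') {z : Fin d → ℤ} (hz : z ∈ box d r)
    {f : (Fin d → ℤ) → ℂ} {a : ℝ} (hf : ∀ x, ‖f x‖ ≤ a) :
    ‖(avg (box d M') fun x => f (x + z)) - avg (box d M') f‖ ≤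
      2 * a * (1 - (((box d (M + r)).card : ℝ) / (box d M).card)⁻¹) := by
  subst hM
  have hz' : -z ∈ box d r := mem_box.2 fun a => by
    have := mem_box.1 hz a
    simp only [Pi.neg_apply]
    omega
  have h1 := norm_sum_sub_sum (C := box d M) (S := (box d (M + r)).map (addRightEmbedding z))
    (T := box d (M + r)) (fun u hu => Finset.mem_map.2 ⟨-z + u, add_mem_box hz' hu, by simp⟩)
    (box_mono (Nat.le_add_right M r)) hf
  rw [Finset.sum_map, Finset.card_map] at h1
  have hc0 : (0 : ℝ) < (box d (M + r)).card := by rw [card_box]; positivity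
  unfold avg
  rw [← mul_sub, norm_mul, norm_inv, Complex.norm_natCast, inv_mul_le_iff₀ hc0, inv_div]
  refine h1.trans (le_of_eq ?_)
  field_simp
  ring

theorem trans_inv {U : Filter ℕ} [U.NeBot] (hU : U ≤ atTop) {M : ℕ → ℕ} (hM : ∀ k, k ≤ M k)
    {β : ℝ} {h : ℕ → ℝ} {ω : quasiLocal d n →L[ℂ] ℂ}
    (hω : ∀ A, Tendsto (fun k => avg (box d (M k)) fun x => om n (M k + k) β (h k) x A) U
      (𝓝 (ω A))) : IsTranslationInvariant ω := by
  intro z w
  obtain ⟨r, hr⟩ := exists_subset_box ({z} : Finset (Fin d → ℤ))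
  obtain ⟨r', hr'⟩ := exists_subset_box (w.map fun g => g.1 + z).toFinset
  have hz : z ∈ box d r := hr r le_rfl (Finset.mem_singleton_self z)
  refine tendsto_nhds_unique (hω _) ((hω _).congr_dist ?_)
  have hs := fun k x => om_shift (M k + k) β (h k) x z w
  generalize (w.map fun g => localUnit g.1 g.2.1 g.2.2).prod = A at hs
  generalize (w.map fun g => localUnit (g.1 + z) g.2.1 g.2.2).prod = A' at hs
  have t1 : Tendsto (fun k => M k - r) U atTop :=
    ((tendsto_sub_atTop_nat r).comp (tendsto_atTop_mono hM tendsto_id)).mono_left hU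
  have t2 := ((((ratio d r).comp t1).inv₀ one_ne_zero).const_sub 1).const_mul (2 * ‖A‖)
  rw [inv_one, sub_self, mul_zero] at t2
  refine squeeze_zero' (Eventually.of_forall fun _ => dist_nonneg) ?_ t2
  filter_upwards [hU (eventually_ge_atTop r), hU (eventually_ge_atTop r')] with k a1 a2
  have a3 := avg_shift (Nat.sub_add_cancel (a1.trans (hM k))) hz
    (f := fun x => om n (M k + k) β (h k) x A) fun x => (om_st _ _ _ x).2 A
  have a5 : (avg (box d (M k)) fun x => om n (M k + k) β (h k) x A') =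
      avg (box d (M k)) fun x => om n (M k + k) β (h k) (x + z) A := by
    unfold avg
    rw [Finset.sum_congr rfl fun x hx => hs k x fun g hg => add_mem_box
      (hr' k a2 (List.mem_toFinset.2 (List.mem_map.2 ⟨g, hg, rfl⟩))) hx]
  rw [dist_comm, dist_eq_norm, a5]
  exact a3

/-- **a magnetised translation-invariant KMS state** -/
theorem exists_kms {τ : ℝ → quasiLocal d n → quasiLocal d n}
    (hτ : ∀ (t : ℝ) (A : quasiLocal d n),
      Tendsto (fun N : ℕ => boxDynamics d n N t A) atTop (𝓝 (τ t A)))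
    {p : ℝ → ℝ → ℝ} {m : ℝ → ℝ} (hp : IsPressure d n (nnCoupling d) p) (hm : IsMagnetization p m)
    {β c : ℝ} (hβ : 0 < β) (hc : c < m β) :
    ∃ ω : quasiLocal d n →L[ℂ] ℂ, IsState ω ∧ IsTranslationInvariant ω ∧ IsKMS τ β ω ∧
      (ω (siteMatrix 0 (spinZ n))).im = 0 ∧ c ≤ (ω (siteMatrix 0 (spinZ n))).re := by
  have hex : ∀ k : ℕ, ∃ (h : ℝ) (M : ℕ), 0 < h ∧ h < 1 / ((k : ℝ) + 1) ∧ k ≤ M ∧
      c ≤ (avg (box d M) fun x => om n (M + k) β h x (siteMatrix 0 (spinZ n))).re := fun k => by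
    obtain ⟨h, ⟨h1, h2⟩⟩ := (((hm β hβ).eventually (lt_mem_nhds hc)).and
      (Ioo_mem_nhdsGT (show (0 : ℝ) < 1 / ((k : ℝ) + 1) by positivity))).exists
    obtain ⟨M, h3, h4⟩ := ((eventually_ge_atTop k).and (exists_mag hp hβ h2.1 h1 k)).exists
    exact ⟨h, M, h2.1, h2.2, h3, h4⟩
  choose h M h0 h1 hM hmag using hex
  let U : Ultrafilter ℕ := Ultrafilter.of atTop
  have hU : (U : Filter ℕ) ≤ atTop := Ultrafilter.of_le _
  have hst := fun k x => om_st (d := d) (n := n) (M k + k) β (h k) x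
  obtain ⟨ω, hω⟩ := exists_limit U (fun k => box d (M k))
    (fun k x => om n (M k + k) β (h k) x) fun k x => (hst k x).2
  have hsub : ∀ X : Finset (Fin d → ℤ), ∀ᶠ k in (U : Filter ℕ), ∀ x ∈ box d (M k),
      X ⊆ Lam (M k + k) x := fun X => by
    obtain ⟨r, hr⟩ := exists_subset_box X
    filter_upwards [hU (eventually_ge_atTop r)] with k hk x hx u hu
    exact mem_Lam (add_mem_box (hr k hk hu) hx)
  have hc0 : ∀ M, (0 : ℝ) < (box d M).card := fun M => by rw [card_box]; positivity
  have hS : IsState ω := by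
    refine ⟨tendsto_nhds_unique (hω 1) (tendsto_const_nhds.congr fun k => ?_), fun A => ⟨?_, ?_⟩⟩
    · unfold avg
      rw [Finset.sum_congr rfl fun x _ => (hst k x).1.1, Finset.sum_const, nsmul_eq_mul, mul_one,
        inv_mul_cancel₀ (by exact_mod_cast (hc0 (M k)).ne')]
    · refine tendsto_nhds_unique ((Complex.continuous_im.tendsto _).comp (hω _))
        (tendsto_const_nhds.congr fun k => ?_)
      rw [Function.comp, avg_im, Finset.sum_eq_zero fun x _ => ((hst k x).1.2 A).1, zero_div]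
    · refine ge_of_tendsto' ((Complex.continuous_re.tendsto _).comp (hω _)) fun k => ?_
      rw [Function.comp, avg_re]
      exact div_nonneg (Finset.sum_nonneg fun x _ => ((hst k x).1.2 A).2) (hc0 _).le
  refine ⟨ω, hS, trans_inv hU hM hω, fun A B => ?_, IsState.im_sa hS ?_,
    ge_of_tendsto' ((Complex.continuous_re.tendsto _).comp (hω _)) hmag⟩
  · obtain ⟨K, hK⟩ := locSys d n
    obtain ⟨F, ⟨f1, f2, f3⟩, f4, f5⟩ := kms_limit (U := U) (s := fun k => box d (M k))
      (i := fun k x => (Lam (M k + k) x, h k)) hβ hK (tendsto_dyn hτ) (fun k x => (hst k x).2)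
      (fun P hP => by
        obtain ⟨pa, ha, pb, hb, hab⟩ := eventually_prod_iff.1 hP
        obtain ⟨X, hX⟩ := eventually_atTop.1 ha
        have t1 : Tendsto h atTop (𝓝 0) := squeeze_zero (fun k => (h0 k).le) (fun k => (h1 k).le)
          tendsto_one_div_add_atTop_nhds_zero_nat
        filter_upwards [hsub X, hU (t1.eventually hb)] with k a1 a2 x hx
        exact hab (hX _ (a1 x hx)) a2) hω
      (fun m' B ⟨X, _, hB⟩ => by
        filter_upwards [hsub X] with k a1 x hx A
        exact om_kms (loc_mono (a1 x hx) hB) β (h k) A) A B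
    exact ⟨F, f1, f2, f3, f4, f5⟩
  · rw [star_siteMatrix, spinZ_conj]

theorem coup_nn (d : ℕ) : Coup (nnCoupling d) := by
  refine ⟨by simp [nnCoupling], fun z => by simp [nnCoupling], fun z => ?_, ?_, ?_⟩
  · unfold nnCoupling
    split_ifs <;> norm_num
  · refine (box d 1).finite_toSet.subset fun z hz => ?_
    have h : ∑ a, |z a| = 1 := by
      by_contra h
      exact hz (if_neg h)
    refine mem_box.2 fun a => ?_
    have := Finset.single_le_sum (f := fun a => |z a|) (fun a _ => abs_nonneg _) (Finset.mem_univ a)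
    rw [h, abs_le] at this
    exact_mod_cast this
  · rw [eq_top_iff]
    intro z _
    rw [← Finset.univ_sum_single z]
    refine sum_mem fun a _ => ?_
    have e : Pi.single a (z a) = z a • (Pi.single a 1 : Fin d → ℤ) := by
      rw [← Pi.single_smul, smul_eq_mul, mul_one]
    rw [e]
    refine AddSubgroup.zsmul_mem _ (AddSubgroup.subset_closure ?_) _
    have : ∑ b, |(Pi.single a 1 : Fin d → ℤ) b| = 1 := by
      simp [Pi.single_apply, apply_ite abs]
    simp [nnCoupling, this]

/-- **S0528** from the thermodynamic limit and the sandwich bound -/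
theorem s0528_of (hT : ThermoStmt) (hS : SandStmt) (d twoS : ℕ) (hd : 3 ≤ d) (hn : 1 ≤ twoS)
    (τ : ℝ → quasiLocal d twoS → quasiLocal d twoS)
    (hτ : ∀ (t : ℝ) (A : quasiLocal d twoS),
      Tendsto (fun n : ℕ => boxDynamics d twoS n t A) atTop (𝓝 (τ t A))) :
    ∃ β₀ : ℝ, 0 < β₀ ∧ ∀ β : ℝ, β₀ ≤ β →
      ∃ ω : quasiLocal d twoS →L[ℂ] ℂ, IsState ω ∧ IsTranslationInvariant ω ∧ IsKMS τ β ω ∧
        (ω (siteMatrix 0 (spinZ twoS))).im = 0 ∧
        spinVal twoS / 4 ≤ (ω (siteMatrix 0 (spinZ twoS))).re := by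
  obtain ⟨p, m, hp, hm, -⟩ := hT d twoS _ (by omega) hn (coup_nn d)
  obtain ⟨β0, h1, h2⟩ := hS d twoS _ hd hn (coup_nn d) p m hp hm
  refine ⟨max β0 4, by positivity, fun β hβ => ?_⟩
  have b1 : 4 ≤ β := (le_max_right _ _).trans hβ
  refine exists_kms hτ hp hm (by linarith) ?_
  have a1 := (h2 β ((le_max_left _ _).trans hβ)).1
  have a2 : β ^ (-(5 / 4 : ℝ)) ≤ β ^ (-1 : ℝ) :=
    Real.rpow_le_rpow_of_exponent_le (by linarith) (by norm_num)
  have a3 : β ^ (-1 : ℝ) ≤ 1 / 4 := by
    rw [Real.rpow_neg_one, ← one_div]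
    exact one_div_le_one_div_of_le (by norm_num) b1
  have a4 : (1 : ℝ) ≤ twoS := by exact_mod_cast hn
  unfold spinVal at a1 ⊢
  linarith

end Crest.Agent.N337.KMS
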