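import Mathlib

/-! # Row 337, S0528 (helper9): functions on the KMS strip and their limits. -/

set_option autoImplicit false

open Filter Topology Set Complex

namespace Crest.Agent.N337.KMS

/-- `F` is a bounded holomorphic function on the strip -/
structure Str (β : ℝ) (F : ℂ → ℂ) : Prop where
  cont : ContinuousOn F {z | 0 ≤ z.im ∧ z.im ≤ β}
  diff : DifferentiableOn ℂ F {z | 0 < z.im ∧ z.im < β}
  bdd : ∃ C : ℝ, ∀ z : ℂ, 0 ≤ z.im → z.im ≤ β → ‖F z‖ ≤ C

/-- `f`, `g` are the two boundary values of a bounded holomorphic function on the strip -/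
def KF (β : ℝ) (f g : ℝ → ℂ) : Prop :=
  ∃ F : ℂ → ℂ, Str β F ∧ (∀ t : ℝ, F t = f t) ∧ ∀ t : ℝ, F (t + β * I) = g t

/-- maximum principle on the strip -/
theorem Str.le {β : ℝ} (hβ : 0 < β) {F : ℂ → ℂ} (h : Str β F) {C : ℝ}
    (h0 : ∀ t : ℝ, ‖F t‖ ≤ C) (h1 : ∀ t : ℝ, ‖F (t + β * I)‖ ≤ C) {z : ℂ} (hz0 : 0 ≤ z.im)
    (hz1 : z.im ≤ β) : ‖F z‖ ≤ C := by
  obtain ⟨D, hD⟩ := h.bdd
  refine PhragmenLindelof.horizontal_strip (a := 0) (b := β) ⟨h.diff, ?_⟩
    ⟨0, by rw [sub_zero]; positivity, 0, ?_⟩ (fun w hw => ?_) (fun w hw => ?_) hz0 hz1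
  · rw [closure_preimage_im, closure_Ioo hβ.ne]
    exact h.cont
  · refine Asymptotics.IsBigO.of_bound D ?_
    refine mem_inf_of_right (mem_principal.2 fun w hw => ?_)
    simpa using hD w hw.1.le hw.2.le
  · have : w = (w.re : ℂ) := by apply Complex.ext <;> simp [hw]
    rw [this]; exact h0 _
  · have : w = (w.re : ℂ) + β * I := by apply Complex.ext <;> simp [hw]
    rw [this]; exact h1 _

theorem Str.add {β : ℝ} {F G : ℂ → ℂ} (h : Str β F) (h' : Str β G) : Str β fun z => F z + G z := by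
  obtain ⟨C, hC⟩ := h.bdd
  obtain ⟨D, hD⟩ := h'.bdd
  exact ⟨h.cont.add h'.cont, h.diff.add h'.diff, C + D, fun z a b =>
    (norm_add_le _ _).trans (add_le_add (hC z a b) (hD z a b))⟩

theorem Str.const_mul {β : ℝ} {F : ℂ → ℂ} (h : Str β F) (c : ℂ) : Str β fun z => c * F z := by
  obtain ⟨C, hC⟩ := h.bdd
  exact ⟨continuousOn_const.mul h.cont, h.diff.const_mul c, ‖c‖ * C, fun z a b => by
    rw [norm_mul]; exact mul_le_mul_of_nonneg_left (hC z a b) (norm_nonneg _)⟩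

theorem KF.add {β : ℝ} {f g f' g' : ℝ → ℂ} (h : KF β f g) (h' : KF β f' g') :
    KF β (fun t => f t + f' t) (fun t => g t + g' t) := by
  obtain ⟨F, h1, h2, h3⟩ := h
  obtain ⟨G, h4, h5, h6⟩ := h'
  exact ⟨fun z => F z + G z, h1.add h4, fun t => by simp only [h2, h5],
    fun t => by simp only [h3, h6]⟩

theorem KF.const_mul {β : ℝ} {f g : ℝ → ℂ} (h : KF β f g) (c : ℂ) :
    KF β (fun t => c * f t) (fun t => c * g t) := by
  obtain ⟨F, h1, h2, h3⟩ := h
  exact ⟨fun z => c * F z, h1.const_mul c, fun t => by simp only [h2], fun t => by simp only [h3]⟩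

theorem KF.sum {β : ℝ} {ι : Type*} (s : Finset ι) {f g : ι → ℝ → ℂ}
    (h : ∀ i ∈ s, KF β (f i) (g i)) :
    KF β (fun t => ∑ i ∈ s, f i t) (fun t => ∑ i ∈ s, g i t) := by
  classical
  induction s using Finset.induction_on with
  | empty =>
    exact ⟨fun _ => 0, ⟨continuousOn_const, differentiableOn_const _, 0, fun _ _ _ => by simp⟩,
      fun _ => by simp, fun _ => by simp⟩
  | insert a s ha ih =>
    simp only [Finset.sum_insert ha]
    exact (h a (Finset.mem_insert_self _ _)).add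
      (ih fun i hi => h i (Finset.mem_insert_of_mem hi))

theorem one_le_norm_add_I {z : ℂ} (hz : 0 ≤ z.im) : 1 ≤ ‖z + I‖ := by
  refine le_trans ?_ (abs_im_le_norm _)
  rw [add_im, I_im]
  exact le_trans (by linarith) (le_abs_self _)

theorem add_I_ne {z : ℂ} (hz : 0 ≤ z.im) : z + I ≠ 0 := by
  have := one_le_norm_add_I hz
  intro h
  rw [h, norm_zero] at this
  linarith

theorem Str.div {β : ℝ} {F : ℂ → ℂ} (h : Str β F) : Str β fun z => F z / (z + I) := by
  obtain ⟨C, hC⟩ := h.bdd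
  refine ⟨h.cont.div (by fun_prop) fun z hz => add_I_ne hz.1,
    h.diff.div (by fun_prop) fun z hz => add_I_ne hz.1.le, C, fun z a b => ?_⟩
  rw [norm_div]
  exact (div_le_self (norm_nonneg _) (one_le_norm_add_I a)).trans (hC z a b)

/-- bounded, locally uniform limits of boundary values are boundary values -/
theorem KF.limit {ι : Type*} {l : Filter ι} [l.NeBot] {β : ℝ} (hβ : 0 < β) {f g : ι → ℝ → ℂ}
    {f₀ g₀ : ℝ → ℂ} {C : ℝ} (h : ∀ᶠ i in l, KF β (f i) (g i))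
    (hC : ∀ᶠ i in l, ∀ t, ‖f i t‖ ≤ C ∧ ‖g i t‖ ≤ C)
    (hu : ∀ ε : ℝ, 0 < ε → ∀ R : ℝ, ∀ᶠ i in l, ∀ t, |t| ≤ R →
      ‖f i t - f₀ t‖ ≤ ε ∧ ‖g i t - g₀ t‖ ≤ ε) : KF β f₀ g₀ := by
  classical
  have hex : ∀ i, ∃ F : ℂ → ℂ, KF β (f i) (g i) →
      Str β F ∧ (∀ t : ℝ, F t = f i t) ∧ ∀ t : ℝ, F (t + β * I) = g i t := fun i => by
    by_cases hi : KF β (f i) (g i)
    · obtain ⟨F, hF⟩ := hi
      exact ⟨F, fun _ => hF⟩
    · exact ⟨0, fun h' => (hi h').elim⟩
  choose F hF using hex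
  have hF' := h.mono fun i hi => hF i hi
  set S : Set ℂ := {z | 0 ≤ z.im ∧ z.im ≤ β} with hS
  have hC0 : 0 ≤ C := by
    obtain ⟨i, hi⟩ := hC.exists
    exact (norm_nonneg _).trans (hi 0).1
  have cau : UniformCauchySeqOn (fun i z => F i z / (z + I)) l S := by
    intro u hu'
    obtain ⟨ε, hε, hεu⟩ := Metric.mem_uniformity_dist.1 hu'
    have hev := (hF'.and hC).and (hu (ε / 4) (by positivity) (4 * C / ε))
    filter_upwards [hev.prod_mk hev] with p hp z hz
    obtain ⟨⟨⟨⟨a1, a2, a3⟩, a4⟩, a5⟩, ⟨⟨b1, b2, b3⟩, b4⟩, b5⟩ := hp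
    refine hεu ?_
    have key : ∀ (t : ℝ) (x y w v : ℂ), 0 ≤ w.im → w.re = t → ‖x‖ ≤ C → ‖y‖ ≤ C →
        (|t| ≤ 4 * C / ε → ‖x - v‖ ≤ ε / 4 ∧ ‖y - v‖ ≤ ε / 4) →
        ‖(x + (-1) * y) / (w + I)‖ ≤ ε / 2 := by
      intro t x y w v hw hwt hx hy hv
      have e : x + (-1) * y = x - y := by ring
      rw [e, norm_div]
      have n1 := one_le_norm_add_I hw
      rw [div_le_iff₀ (by linarith)]
      by_cases ht : |t| ≤ 4 * C / ε
      · have := norm_sub_le (x - v) (y - v)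
        rw [sub_sub_sub_cancel_right] at this
        nlinarith [(hv ht).1, (hv ht).2]
      · have n2 : |t| ≤ ‖w + I‖ := by
          refine le_trans (le_of_eq ?_) (abs_re_le_norm _)
          rw [add_re, I_re, add_zero, hwt]
        rw [not_le, div_lt_iff₀ hε] at ht
        have := norm_sub_le x y
        nlinarith
    have hb := ((a1.add (b1.const_mul (-1))).div).le hβ (C := ε / 2)
      (fun t => key t _ _ t (f₀ t) (by simp) (by simp) (by rw [a2]; exact (a4 t).1)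
        (by rw [b2]; exact (b4 t).1) fun ht => by rw [a2, b2]; exact ⟨(a5 t ht).1, (b5 t ht).1⟩)
      (fun t => key t _ _ (t + β * I) (g₀ t) (by simpa using hβ.le) (by simp)
        (by rw [a3]; exact (a4 t).2) (by rw [b3]; exact (b4 t).2)
        fun ht => by rw [a3, b3]; exact ⟨(a5 t ht).2, (b5 t ht).2⟩) hz.1 hz.2
    rw [dist_eq_norm, ← sub_div]
    have e : F p.1 z - F p.2 z = F p.1 z + (-1) * F p.2 z := by ring
    rw [e]
    linarith
  have hlim : ∀ z, ∃ a, z ∈ S → Tendsto (fun i => F i z / (z + I)) l (𝓝 a) := fun z => by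
    by_cases hz : z ∈ S
    · obtain ⟨a, ha⟩ := CompleteSpace.complete (cau.cauchy_map hz)
      exact ⟨a, fun _ => ha⟩
    · exact ⟨0, fun h' => (hz h').elim⟩
  choose G hG using hlim
  have hU := cau.tendstoUniformlyOn_of_tendsto hG
  have hpt : ∀ z ∈ S, Tendsto (fun i => F i z) l (𝓝 (G z * (z + I))) := fun z hz => by
    refine ((hG z hz).mul_const (z + I)).congr fun i => ?_
    exact div_mul_cancel₀ _ (add_I_ne hz.1)
  have hptw : ∀ (t : ℝ), Tendsto (fun i => f i t) l (𝓝 (f₀ t)) ∧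
      Tendsto (fun i => g i t) l (𝓝 (g₀ t)) := fun t => by
    constructor <;> refine Metric.tendsto_nhds.2 fun ε hε => ?_
    · filter_upwards [hu (ε / 2) (by positivity) |t|] with i hi
      rw [dist_eq_norm]; linarith [(hi t le_rfl).1]
    · filter_upwards [hu (ε / 2) (by positivity) |t|] with i hi
      rw [dist_eq_norm]; linarith [(hi t le_rfl).2]
  refine ⟨fun z => G z * (z + I), ⟨?_, ?_, C, fun z a b => ?_⟩, fun t => ?_, fun t => ?_⟩
  · exact (hU.continuousOn (hF'.mono fun i hi => hi.1.div.cont).frequently).mul (by fun_prop)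
  · refine DifferentiableOn.mul ?_ (by fun_prop)
    refine TendstoLocallyUniformlyOn.differentiableOn
      (hU.mono fun z hz => ⟨hz.1.le, hz.2.le⟩).tendstoLocallyUniformlyOn
      (hF'.mono fun i hi => hi.1.div.diff) ?_
    exact (isOpen_lt continuous_const continuous_im).inter (isOpen_lt continuous_im continuous_const)
  · refine le_of_tendsto (hpt z ⟨a, b⟩).norm ?_
    filter_upwards [hF', hC] with i hi hi'
    exact hi.1.le hβ (fun t => by rw [hi.2.1]; exact (hi' t).1)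
      (fun t => by rw [hi.2.2]; exact (hi' t).2) a b
  · refine tendsto_nhds_unique (hpt t ⟨by simp, by simpa using hβ.le⟩) ?_
    exact (hptw t).1.congr' (hF'.mono fun i hi => (hi.2.1 t).symm)
  · refine tendsto_nhds_unique (hpt (t + β * I) ⟨by simpa using hβ.le, by simp⟩) ?_
    exact (hptw t).2.congr' (hF'.mono fun i hi => (hi.2.2 t).symm)

/-- equi-Lipschitz pointwise convergence is locally uniform -/
theorem unif_of_lip {ι : Type*} {l : Filter ι} [l.NeBot] {f : ι → ℝ → ℂ} {f₀ : ℝ → ℂ} {L : ℝ}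
    (hL0 : 0 ≤ L) (hL : ∀ᶠ i in l, ∀ s t, ‖f i s - f i t‖ ≤ L * |s - t|)
    (hp : ∀ t, Tendsto (fun i => f i t) l (𝓝 (f₀ t))) (ε : ℝ) (hε : 0 < ε) (R : ℝ) :
    ∀ᶠ i in l, ∀ t, |t| ≤ R → ‖f i t - f₀ t‖ ≤ ε := by
  have h0 : ∀ s t, ‖f₀ s - f₀ t‖ ≤ L * |s - t| := fun s t =>
    le_of_tendsto ((hp s).sub (hp t)).norm (hL.mono fun i hi => hi s t)
  obtain ⟨T, -, hT, hc⟩ := finite_cover_balls_of_compact (isCompact_Icc (a := -R) (b := R))
    (show 0 < ε / (3 * (L + 1)) by positivity)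
  have h1 : ∀ᶠ i in l, ∀ c ∈ T, ‖f i c - f₀ c‖ ≤ ε / 3 := by
    refine (eventually_all_finite hT).2 fun c _ => ?_
    filter_upwards [Metric.tendsto_nhds.1 (hp c) (ε / 3) (by positivity)] with i hi
    rw [dist_eq_norm] at hi
    exact hi.le
  filter_upwards [hL, h1] with i hi hi' t ht
  obtain ⟨c, hcT, hc'⟩ := mem_iUnion₂.1 (hc (abs_le.1 ht))
  rw [Metric.mem_ball, Real.dist_eq, lt_div_iff₀ (by positivity)] at hc'
  have a1 := hi t c
  have a2 := h0 c t
  rw [abs_sub_comm] at a2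
  have a3 := hi' c hcT
  have a4 : f i t - f₀ t = (f i t - f i c) + (f i c - f₀ c) + (f₀ c - f₀ t) := by ring
  rw [a4]
  have a5 := norm_add₃_le (a := f i t - f i c) (b := f i c - f₀ c) (c := f₀ c - f₀ t)
  nlinarith [abs_nonneg (t - c)]

end Crest.Agent.N337.KMS
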